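import Vale.Agent.P342.Defs
import Vale.Agent.P325.BaseFinal

/-! P342: the arc digraph and the final statement.
Plan.  `mem_arc` by `simp`.  `arc_sound`: colour `u` by the set of the colours of the arcs `(u, v) ∈ E`.
`arc_choose`: inject `T` into `powersetCard (k/2) univ` (`Fintype.card_finset_len`, `Function.Embedding.nonempty_of_card_le`),
colour the arc `N` by an element of `S (col (unpair N).1) \ S (col (unpair N).2)` (`Finset.eq_of_subset_of_card_le`).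
`arc_four`: an explicit table `f : Fin 4 → Fin 4 → Fin 4 → Fin 3` with `f u v w ≠ f v w x` for `u ≠ v ≠ w ≠ x` (`decide`),
namely `![![![0,0,0,0],![0,0,0,2],![0,2,0,2],![0,0,0,0]], ![![0,1,1,1],![0,0,0,0],![2,2,0,2],![0,0,0,0]],
![![0,1,1,1],![0,0,0,1],![0,0,0,0],![0,0,0,0]], ![![0,1,1,1],![2,0,1,1],![2,2,0,1],![0,0,0,0]]]`.
`final`: five arc steps, `72 ≤ choose 9 4`, `9 ≤ choose 5 2`, `5 ≤ choose 4 2`; apply `HardStmt` to the cardinality of
`Finset (Finset (Finset (Finset (Finset (Fin c)))))`; `tm_of_pt`, `ser_list`, `ser_pair`, `ser_nat` of P325.BaseFinal;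
`colr_iff` translates to `SimpleGraph.Colorable` (extend a colouring of `verts E` by a default colour). -/

namespace Vale.Agent.P342

open Finset Vale.Agent.P325 Vale.Agent.Lib.H23 Turing
open scoped BigOperators

theorem mem_arc {E : EL} {e : ℕ × ℕ} :
    e ∈ arc E ↔ ∃ u v w, (u, v) ∈ E ∧ (v, w) ∈ E ∧ e = (Nat.pair u v, Nat.pair v w) := by
  simp only [arc, List.mem_flatMap, List.mem_map, List.mem_filter, decide_eq_true_eq]
  constructor
  · rintro ⟨⟨u, v⟩, h1, ⟨v', w⟩, ⟨h2, h3⟩, rfl⟩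
    obtain rfl : v = v' := h3
    exact ⟨u, v, w, h1, h2, rfl⟩
  · rintro ⟨u, v, w, h1, h2, rfl⟩
    exact ⟨(u, v), h1, (v, w), ⟨h2, rfl⟩, rfl⟩

theorem pt_arc : PT arc := by
  refine Vale.Agent.P333.pt_flatMap (f := fun (E : EL) (a : ℕ × ℕ) =>
    (E.filter fun b => decide (a.2 = b.1)).map fun b => (Nat.pair a.1 a.2, Nat.pair b.1 b.2))
    (l := fun E => E) ?_ PT.id
  refine PT.map (f := fun (p : EL × (ℕ × ℕ)) (b : ℕ × ℕ) =>
    (Nat.pair p.2.1 p.2.2, Nat.pair b.1 b.2)) ?_ ?_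
  · exact PT.pair (pt_pair PT.fst'.snd.fst PT.fst'.snd.snd) (pt_pair PT.snd'.fst PT.snd'.snd)
  · exact Vale.Agent.P333.pt_filter
      (f := fun (p : EL × (ℕ × ℕ)) (b : ℕ × ℕ) => decide (p.2.2 = b.1))
      (pt_decEq PT.fst'.snd.snd PT.snd'.fst) PT.fst'

theorem arc_loop {E : EL} (h : ∀ e ∈ E, e.1 ≠ e.2) : ∀ e ∈ arc E, e.1 ≠ e.2 := by
  intro e he
  obtain ⟨u, v, w, h1, _, rfl⟩ := mem_arc.1 he
  intro h2
  exact h _ h1 (Nat.pair_eq_pair.1 h2).1

theorem Colr.of_card {E : EL} {T T' : Type} [Fintype T] [Fintype T'] (h : Colr E T)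
    (hc : Fintype.card T ≤ Fintype.card T') : Colr E T' := by
  obtain ⟨col, hcol⟩ := h
  obtain ⟨g⟩ := Function.Embedding.nonempty_of_card_le hc
  exact ⟨fun n => g (col n), fun e he h2 => hcol e he (g.injective h2)⟩

theorem arc_sound {E : EL} {T : Type} [Fintype T] (h : Colr (arc E) T) : Colr E (Finset T) := by
  classical
  obtain ⟨col, hcol⟩ := h
  refine ⟨fun u => univ.filter fun t => ∃ v, (u, v) ∈ E ∧ col (Nat.pair u v) = t, ?_⟩
  rintro ⟨u, v⟩ he h2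
  have h3 : col (Nat.pair u v) ∈ univ.filter fun t => ∃ w, (v, w) ∈ E ∧ col (Nat.pair v w) = t := by
    have h4 : col (Nat.pair u v) ∈
        univ.filter fun t => ∃ w, (u, w) ∈ E ∧ col (Nat.pair u w) = t :=
      mem_filter.2 ⟨mem_univ _, v, he, rfl⟩
    dsimp only at h2
    rwa [h2] at h4
  obtain ⟨_, w, hw, h5⟩ := mem_filter.1 h3
  exact hcol _ (mem_arc.2 ⟨u, v, w, he, hw, rfl⟩) h5.symm

theorem arc_choose {E : EL} {T : Type} [Fintype T] {k : ℕ} (hk : 0 < k)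
    (hc : Fintype.card T ≤ k.choose (k / 2)) (h : Colr E T) : Colr (arc E) (Fin k) := by
  classical
  obtain ⟨col, hcol⟩ := h
  have hc' : Fintype.card T ≤ Fintype.card {s : Finset (Fin k) // s.card = k / 2} := by
    rw [Fintype.card_finset_len, Fintype.card_fin]; exact hc
  obtain ⟨g⟩ := Function.Embedding.nonempty_of_card_le hc'
  have key : ∀ a b : T, ∃ x : Fin k, a ≠ b → x ∈ (g a).1 ∧ x ∉ (g b).1 := by
    intro a b
    by_cases hab : a = b
    · exact ⟨⟨0, hk⟩, fun h => absurd hab h⟩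
    · have h1 : ¬ (g a).1 ⊆ (g b).1 := fun hs =>
        hab (g.injective (Subtype.ext
          (Finset.eq_of_subset_of_card_le hs (by rw [(g a).2, (g b).2]))))
      obtain ⟨x, hx1, hx2⟩ := Finset.not_subset.1 h1
      exact ⟨x, fun _ => ⟨hx1, hx2⟩⟩
  choose F hF using key
  refine ⟨fun N => F (col N.unpair.1) (col N.unpair.2), fun e he => ?_⟩
  obtain ⟨u, v, w, h1, h2, rfl⟩ := mem_arc.1 he
  simp only [Nat.unpair_pair]
  intro h3
  exact (hF _ _ (hcol _ h1)).2 (h3 ▸ (hF _ _ (hcol _ h2)).1)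

def arc_tab : Fin 4 → Fin 4 → Fin 4 → Fin 3 :=
  ![![![0, 0, 0, 0], ![0, 0, 0, 2], ![0, 2, 0, 2], ![0, 0, 0, 0]],
    ![![0, 1, 1, 1], ![0, 0, 0, 0], ![2, 2, 0, 2], ![0, 0, 0, 0]],
    ![![0, 1, 1, 1], ![0, 0, 0, 1], ![0, 0, 0, 0], ![0, 0, 0, 0]],
    ![![0, 1, 1, 1], ![2, 0, 1, 1], ![2, 2, 0, 1], ![0, 0, 0, 0]]]

theorem arc_tab_ne : ∀ u v w x : Fin 4, u ≠ v → v ≠ w → w ≠ x →
    arc_tab u v w ≠ arc_tab v w x := by
  decide

theorem arc_four {E : EL} (h : Colr E (Fin 4)) : Colr (arc (arc E)) (Fin 3) := by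
  obtain ⟨col, hcol⟩ := h
  refine ⟨fun N => arc_tab (col N.unpair.1.unpair.1) (col N.unpair.1.unpair.2)
    (col N.unpair.2.unpair.2), fun e he => ?_⟩
  obtain ⟨a, b, c, h1, h2, rfl⟩ := mem_arc.1 he
  obtain ⟨u, v, w, h3, h4, h5⟩ := mem_arc.1 h1
  obtain ⟨v', w', x, _, h7, h8⟩ := mem_arc.1 h2
  obtain ⟨rfl, rfl⟩ := Prod.mk.inj h5
  obtain ⟨h9, rfl⟩ := Prod.mk.inj h8
  obtain ⟨rfl, rfl⟩ := Nat.pair_eq_pair.1 h9
  simp only [Nat.unpair_pair]
  exact arc_tab_ne _ _ _ _ (hcol _ h3) (hcol _ h4) (hcol _ h7)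

theorem colr_iff {E : EL} (h : ∀ e ∈ E, e.1 ≠ e.2) {k : ℕ} (hk : 0 < k) :
    (graphOf E).Colorable k ↔ Colr E (Fin k) := by
  classical
  constructor
  · rintro ⟨C⟩
    refine ⟨fun n => if hn : n ∈ verts E then C ⟨n, hn⟩ else ⟨0, hk⟩, fun e he => ?_⟩
    have h1 : e.1 ∈ verts E :=
      mem_union_left _ (List.mem_toFinset.2 (List.mem_map.2 ⟨e, he, rfl⟩))
    have h2 : e.2 ∈ verts E :=
      mem_union_right _ (List.mem_toFinset.2 (List.mem_map.2 ⟨e, he, rfl⟩))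
    simp only [dif_pos h1, dif_pos h2]
    refine C.valid ?_
    rw [graphOf, SimpleGraph.fromRel_adj]
    exact ⟨fun h3 => h e he (congrArg Subtype.val h3), Or.inl he⟩
  · rintro ⟨col, hcol⟩
    refine ⟨SimpleGraph.Coloring.mk (fun v => col v) fun {u v} huv => ?_⟩
    rw [graphOf, SimpleGraph.fromRel_adj] at huv
    rcases huv.2 with h1 | h1
    · exact hcol _ h1
    · exact (hcol _ h1).symm

theorem final (h : HardStmt) (c : ℕ) (hc : 3 ≤ c) :
    ∃ (f : CNF → EL) (M : TM2ComputableInPolyTime codeCNF codeEL f), (∀ j, Finite (M.tm.Γ j)) ∧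
      ∀ φ, (∀ e ∈ f φ, e.1 ≠ e.2) ∧ (Sat φ → (graphOf (f φ)).Colorable 3) ∧
        (¬ Sat φ → ¬ (graphOf (f φ)).Colorable c) := by
  classical
  obtain ⟨f, pt, hf⟩ := h (Fintype.card (Finset (Finset (Finset (Finset (Finset (Fin c)))))))
  have hg : PT fun φ => arc (arc (arc (arc (arc (f φ))))) :=
    pt_arc.comp (pt_arc.comp (pt_arc.comp (pt_arc.comp (pt_arc.comp pt))))
  obtain ⟨M, hM⟩ := tm_of_pt hg codeEL (fun φ => arc (arc (arc (arc (arc (f φ)))))) fun φ =>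
    ser_list (ser_pair ser_nat ser_nat) _
  refine ⟨_, M, hM, fun φ => ?_⟩
  obtain ⟨a1, a2, a3⟩ := hf φ
  have hl := arc_loop (arc_loop (arc_loop (arc_loop (arc_loop a1))))
  refine ⟨hl, fun hs => ?_, fun hs hcol => a3 hs ?_⟩
  · rw [colr_iff hl (by norm_num)]
    have b1 : Colr (arc (f φ)) (Fin 9) :=
      arc_choose (by norm_num) (by simp [Col, Nat.choose]) (a2 hs)
    have b2 : Colr (arc (arc (f φ))) (Fin 5) :=
      arc_choose (by norm_num) (by simp [Nat.choose]) b1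
    have b3 : Colr (arc (arc (arc (f φ)))) (Fin 4) :=
      arc_choose (by norm_num) (by simp [Nat.choose]) b2
    exact arc_four b3
  · rw [colr_iff hl (by omega)] at hcol
    exact (arc_sound (arc_sound (arc_sound (arc_sound (arc_sound hcol))))).of_card
      (by rw [Fintype.card_fin])

end Vale.Agent.P342
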