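import Vale.Agent.P342.Smooth

/-! P342: the Bellman argument with the function `a^2 b^2`.
Plan.  For a set `S` put `Q S = E_d E_d' E_x E_y (∏ j ∈ Sᶜ, k d d' j) (ES S (F d) x)^2 (ES S (F' d') y)^2` and
`P S = E_d E_x (ES S (F d) x)^2`, `P' S` likewise.  Show by `Finset.induction_on S` that
`Q S - 4 κ ((P ∅ - P S) + (P' ∅ - P' S)) ≤ Q ∅`.  Step `i ∉ S`: `Sᶜ = insert i (insert i S)ᶜ`, `kernel_split`;
`a = ES (insert i S) (F d) = Ei i (ES S (F d))`, `g = ES S (F d) - a`, and for fixed `x, y` (`bell_step`)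
`E_a E_b k (a+g)^2 (b+g')^2 ≥ a^2 b^2 - 2 E_a E_b k (g^2 |g'| + |g| g'^2)`; if `k = 1` the error can be dropped.
Undo `kernel_split` in the error and apply `Nice.err` to the nice kernel
`nice_adapt nice_one (nice_prodS .. Sᶜ)` on `D × (ι → U)`, `D' × (ι → V)`;
`E_d E_x g^2 = E_d infl i (ES S (F d)) = P S - P (insert i S)` (`pyth`) and `≤ E_d infl i (F d)` (`infl_ES_le`).
At `S = univ`: `Q univ = E_d (E F d)^2 * E_d' (E F' d')^2 ≥ μ^2 μ'^2`; `P ∅ ≤ 1`; `F^2 F'^2 ≤ F F'`.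
`core`: apply `bell` to `Tn γ N (F d)`, `Tn γ N' (F' d')` (`Tn_mem`, `expect_Tn`), and `smooth` twice for every
`d, d'` (the second time with `Nice.swap` and `expect_comm`). -/

namespace Vale.Agent.P342

open Finset Vale.Agent.P325
open scoped BigOperators

variable {ι U V D D' : Type} [Fintype ι] [DecidableEq ι] [Fintype U] [Nonempty U] [Fintype V]
  [Nonempty V] [Fintype D] [Nonempty D] [Fintype D'] [Nonempty D']

theorem bell_step {k : U → V → ℝ} (h : Nice k) {a b : ℝ} (ha : 0 ≤ a ∧ a ≤ 1) (hb : 0 ≤ b ∧ b ≤ 1)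
    (g : U → ℝ) (g' : V → ℝ) (hg : 𝔼 x, g x = 0) (hg' : 𝔼 y, g' y = 0) :
    a ^ 2 * b ^ 2 - 2 * 𝔼 x, 𝔼 y, k x y * (g x ^ 2 * |g' y| + |g x| * g' y ^ 2) ≤
      𝔼 x, 𝔼 y, k x y * ((a + g x) ^ 2 * (b + g' y) ^ 2) := by
  have c1 := (abs_le.1 (h.cor (fun x => b * g x) (fun y => a * g' y)
    (by rw [← mul_expect, hg, mul_zero]) (by rw [← mul_expect, hg', mul_zero]))).1
  have c2 : 𝔼 x, 𝔼 y, (k x y * (a ^ 2 * b ^ 2 + 2 * a * b ^ 2 * g x + (b * g x) ^ 2) +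
      k x y * (2 * a ^ 2 * b * g' y + (a * g' y) ^ 2) + 4 * (k x y * (b * g x * (a * g' y))) -
      2 * (k x y * (g x ^ 2 * |g' y| + |g x| * g' y ^ 2))) ≤
      𝔼 x, 𝔼 y, k x y * ((a + g x) ^ 2 * (b + g' y) ^ 2) := by
    refine ops_le fun x => ops_le fun y => ?_
    have a1 : -|g x| ≤ a * g x := by
      refine le_trans ?_ (neg_abs_le _)
      rw [abs_mul, abs_of_nonneg ha.1]
      exact neg_le_neg (mul_le_of_le_one_left (abs_nonneg _) ha.2)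
    have a2 : -|g' y| ≤ b * g' y := by
      refine le_trans ?_ (neg_abs_le _)
      rw [abs_mul, abs_of_nonneg hb.1]
      exact neg_le_neg (mul_le_of_le_one_left (abs_nonneg _) hb.2)
    have a3 := mul_le_mul_of_nonneg_right a1 (sq_nonneg (g' y))
    have a4 := mul_le_mul_of_nonneg_right a2 (sq_nonneg (g x))
    have a5 : 0 ≤ 2 * (a * g x * g' y ^ 2 + |g x| * g' y ^ 2) +
        2 * (b * g' y * g x ^ 2 + |g' y| * g x ^ 2) + (g x * g' y) ^ 2 := by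
      linarith [sq_nonneg (g x * g' y)]
    linarith [mul_nonneg (h.nonneg x y) a5]
  simp only [expect_sub_distrib, expect_add_distrib] at c2
  rw [h.margL, h.margR] at c2
  simp only [expect_add_distrib, ← mul_expect, hg, hg', Fintype.expect_const] at c2
  linarith

theorem bell_abs {G : (ι → U) → ℝ} (hG : ∀ x, 0 ≤ G x ∧ G x ≤ 1) (i : ι) (x : ι → U) :
    (0 ≤ Ei i G x ∧ Ei i G x ≤ 1) ∧ |G x - Ei i G x| ≤ 1 := by
  have h : 0 ≤ Ei i G x ∧ Ei i G x ≤ 1 :=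
    ⟨expect_nonneg fun _ _ => (hG _).1, expect_le univ_nonempty fun _ _ => (hG _).2⟩
  exact ⟨h, abs_le.2 ⟨by linarith [(hG x).1, h.2], by linarith [(hG x).2, h.1]⟩⟩

theorem bell_fix {k : ι → U → V → ℝ} (h : ∀ i, Nice (k i)) {G : (ι → U) → ℝ} {G' : (ι → V) → ℝ}
    (hG : ∀ x, 0 ≤ G x ∧ G x ≤ 1) (hG' : ∀ y, 0 ≤ G' y ∧ G' y ≤ 1) {i : ι} {T : Finset ι}
    (hi : i ∉ T) :
    (𝔼 x : ι → U, 𝔼 y : ι → V, (∏ j ∈ T, k j (x j) (y j)) * (Ei i G x ^ 2 * Ei i G' y ^ 2)) -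
      2 * 𝔼 x : ι → U, 𝔼 y : ι → V, (∏ j ∈ insert i T, k j (x j) (y j)) *
        ((G x - Ei i G x) ^ 2 * |G' y - Ei i G' y| + |G x - Ei i G x| * (G' y - Ei i G' y) ^ 2) ≤
      𝔼 x : ι → U, 𝔼 y : ι → V, (∏ j ∈ insert i T, k j (x j) (y j)) * (G x ^ 2 * G' y ^ 2) := by
  rw [kernel_split k hi fun x y => G x ^ 2 * G' y ^ 2, kernel_split k hi fun x y =>
    (G x - Ei i G x) ^ 2 * |G' y - Ei i G' y| + |G x - Ei i G x| * (G' y - Ei i G' y) ^ 2,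
    mul_expect, ← expect_sub_distrib]
  refine ops_le fun x => ?_
  rw [mul_expect, ← expect_sub_distrib]
  refine ops_le fun y => ?_
  rw [mul_left_comm 2, ← mul_sub]
  refine mul_le_mul_of_nonneg_left ?_ (prod_nonneg fun j _ => (h j).nonneg _ _)
  have := bell_step (h i) (bell_abs hG i x).1 (bell_abs hG' i y).1 _ _ (smooth_zero i G x)
    (smooth_zero i G' y)
  simpa only [Ei_update, add_sub_cancel] using this

theorem bell_fix_one {k : ι → U → V → ℝ} (h : ∀ i, Nice (k i)) (G : (ι → U) → ℝ)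
    (G' : (ι → V) → ℝ) {i : ι} {T : Finset ι} (hi : i ∉ T) (h1 : ∀ a b, k i a b = 1) :
    𝔼 x : ι → U, 𝔼 y : ι → V, (∏ j ∈ T, k j (x j) (y j)) * (Ei i G x ^ 2 * Ei i G' y ^ 2) ≤
      𝔼 x : ι → U, 𝔼 y : ι → V, (∏ j ∈ insert i T, k j (x j) (y j)) * (G x ^ 2 * G' y ^ 2) := by
  rw [kernel_split k hi fun x y => G x ^ 2 * G' y ^ 2]
  refine ops_le fun x => ops_le fun y =>
    mul_le_mul_of_nonneg_left ?_ (prod_nonneg fun j _ => (h j).nonneg _ _)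
  simp only [h1, one_mul, ← mul_expect, ← expect_mul]
  exact mul_le_mul (ops_jensen _) (ops_jensen _) (sq_nonneg _)
    (expect_nonneg fun _ _ => sq_nonneg _)

theorem bell_one {k : D → D' → ι → U → V → ℝ} (h : ∀ d d' i, Nice (k d d' i))
    {G : D → (ι → U) → ℝ} {G' : D' → (ι → V) → ℝ} (hG : ∀ d x, 0 ≤ G d x ∧ G d x ≤ 1)
    (hG' : ∀ d y, 0 ≤ G' d y ∧ G' d y ≤ 1) {κ : ℝ} (hκ : 0 ≤ κ) {i : ι} {T : Finset ι}
    (hi : i ∉ T) (hs : (∀ d d' a b, k d d' i a b = 1) ∨ 𝔼 d, infl i (G d) ≤ κ ^ 4 ∨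
      𝔼 d', infl i (G' d') ≤ κ ^ 4) :
    (𝔼 d, 𝔼 d', 𝔼 x : ι → U, 𝔼 y : ι → V,
        (∏ j ∈ T, k d d' j (x j) (y j)) * (Ei i (G d) x ^ 2 * Ei i (G' d') y ^ 2)) -
      4 * κ * ((𝔼 d, infl i (G d)) + 𝔼 d', infl i (G' d')) ≤
      𝔼 d, 𝔼 d', 𝔼 x : ι → U, 𝔼 y : ι → V,
        (∏ j ∈ insert i T, k d d' j (x j) (y j)) * (G d x ^ 2 * G' d' y ^ 2) := by
  rcases hs with hs | hs
  · refine (sub_le_self _ (mul_nonneg (by linarith) (add_nonneg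
      (expect_nonneg fun _ _ => infl_nonneg _ _) (expect_nonneg fun _ _ => infl_nonneg _ _)))).trans
      (ops_le fun d => ops_le fun d' => bell_fix_one (h d d') _ _ hi (hs d d'))
  have e1 : 𝔼 p : D × (ι → U), (G p.1 p.2 - Ei i (G p.1) p.2) ^ 2 = 𝔼 d, infl i (G d) := ops_prod _
  have e2 : 𝔼 p : D' × (ι → V), (G' p.1 p.2 - Ei i (G' p.1) p.2) ^ 2 = 𝔼 d, infl i (G' d) :=
    ops_prod _
  have c1 := (nice_adapt nice_one fun d d' => nice_prodS (h d d') (insert i T)).err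
    (fun p => G p.1 p.2 - Ei i (G p.1) p.2) (fun p => G' p.1 p.2 - Ei i (G' p.1) p.2)
    (fun p => (bell_abs (hG _) i _).2) (fun p => (bell_abs (hG' _) i _).2) hκ (by rwa [e1, e2])
  rw [e1, e2, nice_four (fun _ _ => 1)
    (fun d d' (x : ι → U) (y : ι → V) => ∏ j ∈ insert i T, k d d' j (x j) (y j))] at c1
  have c2 := ops_le fun d => ops_le fun d' => bell_fix (h d d') (hG d) (hG' d') hi
  simp only [expect_sub_distrib, ← mul_expect] at c2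
  simp only [one_mul] at c1
  linarith

theorem bell_sq {F : D → (ι → U) → ℝ} (hF : ∀ d x, 0 ≤ F d x ∧ F d x ≤ 1) :
    𝔼 d, 𝔼 x, F d x ^ 2 ≤ 1 :=
  expect_le univ_nonempty fun d _ => expect_le univ_nonempty fun x _ =>
    pow_le_one₀ (hF d x).1 (hF d x).2

theorem bell {k : D → D' → ι → U → V → ℝ} (h : ∀ d d' i, Nice (k d d' i))
    {F : D → (ι → U) → ℝ} {F' : D' → (ι → V) → ℝ} (hF : ∀ d x, 0 ≤ F d x ∧ F d x ≤ 1)
    (hF' : ∀ d y, 0 ≤ F' d y ∧ F' d y ≤ 1) {κ : ℝ} (hκ : 0 ≤ κ)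
    (hs : ∀ i, (∀ d d' a b, k d d' i a b = 1) ∨ 𝔼 d, infl i (F d) ≤ κ ^ 4 ∨
      𝔼 d', infl i (F' d') ≤ κ ^ 4) :
    (𝔼 d, 𝔼 x, F d x) ^ 2 * (𝔼 d', 𝔼 y, F' d' y) ^ 2 - 8 * κ ≤
      𝔼 d, 𝔼 d', 𝔼 x : ι → U, 𝔼 y : ι → V, (∏ j, k d d' j (x j) (y j)) * (F d x * F' d' y) := by
  have key : ∀ S : Finset ι, (𝔼 d, 𝔼 d', 𝔼 x : ι → U, 𝔼 y : ι → V,
      (∏ j ∈ Sᶜ, k d d' j (x j) (y j)) * (ES S (F d) x ^ 2 * ES S (F' d') y ^ 2)) +
      4 * κ * ((𝔼 d, 𝔼 x, ES S (F d) x ^ 2) + 𝔼 d, 𝔼 x, ES S (F' d) x ^ 2) ≤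
      (𝔼 d, 𝔼 d', 𝔼 x : ι → U, 𝔼 y : ι → V,
        (∏ j, k d d' j (x j) (y j)) * (F d x ^ 2 * F' d' y ^ 2)) +
      4 * κ * ((𝔼 d, 𝔼 x, F d x ^ 2) + 𝔼 d, 𝔼 x, F' d x ^ 2) := by
    intro S
    induction S using Finset.induction_on with
    | empty => simp only [compl_empty, ES_empty, le_refl]
    | insert i S hi ih =>
      refine le_trans ?_ ih
      have c1 := bell_one h (fun d => ES_mem (hF d) S) (fun d => ES_mem (hF' d) S) hκ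
        (T := (insert i S)ᶜ) (i := i) (by simp) ((hs i).imp_right (Or.imp
          (ops_le fun d => infl_ES_le hi _).trans (ops_le fun d => infl_ES_le hi _).trans))
      rw [insert_compl_insert hi] at c1
      simp only [ES_insert hi, ES_Ei hi, pyth i (ES S _), expect_add_distrib]
      linarith
  have c1 := key univ
  simp only [compl_univ, prod_empty, one_mul, ES_univ, Fintype.expect_const, ← mul_expect,
    ← expect_mul] at c1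
  have c2 := mul_le_mul (ops_jensen fun d => 𝔼 x, F d x) (ops_jensen fun d => 𝔼 x, F' d x)
    (sq_nonneg _) (expect_nonneg fun _ _ => sq_nonneg _)
  have c3 : 𝔼 d, 𝔼 d', 𝔼 x : ι → U, 𝔼 y : ι → V,
      (∏ j, k d d' j (x j) (y j)) * (F d x ^ 2 * F' d' y ^ 2) ≤
      𝔼 d, 𝔼 d', 𝔼 x : ι → U, 𝔼 y : ι → V, (∏ j, k d d' j (x j) (y j)) * (F d x * F' d' y) :=
    ops_le fun d => ops_le fun d' => ops_le fun x => ops_le fun y =>
      mul_le_mul_of_nonneg_left (mul_le_mul (pow_le_of_le_one (hF d x).1 (hF d x).2 two_ne_zero)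
        (pow_le_of_le_one (hF' d' y).1 (hF' d' y).2 two_ne_zero) (sq_nonneg _) (hF d x).1)
        (prod_nonneg fun j _ => (h d d' j).nonneg _ _)
  have c4 := mul_le_mul_of_nonneg_left (add_le_add (bell_sq hF) (bell_sq hF')) hκ
  have c5 : 0 ≤ κ * ((𝔼 d, (𝔼 x, F d x) ^ 2) + 𝔼 d, (𝔼 x, F' d x) ^ 2) :=
    mul_nonneg hκ (add_nonneg (expect_nonneg fun _ _ => sq_nonneg _)
      (expect_nonneg fun _ _ => sq_nonneg _))
  linarith

theorem core {k : D → D' → ι → U → V → ℝ} (h : ∀ d d' i, Nice (k d d' i))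
    {F : D → (ι → U) → ℝ} {F' : D' → (ι → V) → ℝ} (hF : ∀ d x, 0 ≤ F d x ∧ F d x ≤ 1)
    (hF' : ∀ d y, 0 ≤ F' d y ∧ F' d y ≤ 1) {κ γ : ℝ} (hκ : 0 ≤ κ) (h0 : 0 ≤ γ) (h1 : γ ≤ 1)
    (N N' : Finset ι)
    (hs : ∀ i, (∀ d d' a b, k d d' i a b = 1) ∨ 𝔼 d, infl i (Tn γ N (F d)) ≤ κ ^ 4 ∨
      𝔼 d', infl i (Tn γ N' (F' d')) ≤ κ ^ 4) :
    (𝔼 d, 𝔼 x, F d x) ^ 2 * (𝔼 d', 𝔼 y, F' d' y) ^ 2 - 8 * κ - 2 * γ ≤
      𝔼 d, 𝔼 d', 𝔼 x : ι → U, 𝔼 y : ι → V, (∏ j, k d d' j (x j) (y j)) * (F d x * F' d' y) := by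
  have c1 := bell h (fun d => Tn_mem h0 h1 N (hF d)) (fun d => Tn_mem h0 h1 N' (hF' d)) hκ hs
  simp only [expect_Tn] at c1
  have sq : ∀ {W : Type} [Fintype W] [Nonempty W] {f : W → ℝ}, (∀ x, 0 ≤ f x ∧ f x ≤ 1) →
      𝔼 x, f x ^ 2 ≤ 1 := fun hf =>
    expect_le univ_nonempty fun x _ => pow_le_one₀ (hf x).1 (hf x).2
  have c2 : ∀ d d', (𝔼 x : ι → U, 𝔼 y : ι → V, (∏ j, k d d' j (x j) (y j)) *
      (Tn γ N (F d) x * Tn γ N' (F' d') y)) - 2 * γ ≤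
      𝔼 x : ι → U, 𝔼 y : ι → V, (∏ j, k d d' j (x j) (y j)) * (F d x * F' d' y) := by
    intro d d'
    have a1 := (abs_le.1 (smooth (h d d') h0 h1 N (F d) (F' d'))).1
    have a2 := (abs_le.1 (smooth (fun i => (h d d' i).swap) h0 h1 N' (F' d') (Tn γ N (F d)))).1
    rw [expect_comm] at a2
    simp only [sub_mul, mul_sub, expect_sub_distrib, mul_comm _ (Tn γ N (F d) _)] at a1 a2
    have a3 := mul_le_mul_of_nonneg_left (add_le_add (sq (hF d)) (sq (hF' d'))) h0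
    have a4 := mul_le_mul_of_nonneg_left
      (add_le_add (sq (hF' d')) (sq (Tn_mem h0 h1 N (hF d)))) h0
    linarith
  have c3 := ops_le fun d => ops_le fun d' => c2 d d'
  simp only [expect_sub_distrib, Fintype.expect_const] at c3
  linarith

end Vale.Agent.P342
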