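import Vale.Agent.P342.Stmt
import Vale.Agent.P325.PTF

/-! P342: definitions of the proof (see notes/P342.md). -/

namespace Vale.Agent.P342

open Finset Vale.Agent.P325
open scoped BigOperators

/-- proper colouring of an edge list with colours in `T` -/
def Colr (E : EL) (T : Type) : Prop := ∃ col : ℕ → T, ∀ e ∈ E, col e.1 ≠ col e.2

section Ops

variable {ι U : Type} [Fintype ι] [DecidableEq ι] [Fintype U]

/-- average over the coordinate `i` -/
noncomputable def Ei (i : ι) (f : (ι → U) → ℝ) (x : ι → U) : ℝ := 𝔼 a, f (Function.update x i a)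

/-- average over the coordinates in `S` -/
noncomputable def ES (S : Finset ι) (f : (ι → U) → ℝ) (x : ι → U) : ℝ :=
  𝔼 y : ι → U, f (S.piecewise y x)

/-- noise operator: every coordinate in `N` is resampled with probability `γ` -/
noncomputable def Tn (γ : ℝ) (N : Finset ι) (f : (ι → U) → ℝ) (x : ι → U) : ℝ :=
  ∑ A ∈ N.powerset, γ ^ A.card * (1 - γ) ^ (N.card - A.card) * ES A f x

/-- influence -/
noncomputable def infl (i : ι) (f : (ι → U) → ℝ) : ℝ := 𝔼 x, (f x - Ei i f x) ^ 2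

end Ops

/-- A coupling of two uniform distributions, given by its density `k`, with maximal correlation at
most `1/2` and hypercontractive in both directions. -/
structure Nice {U V : Type} [Fintype U] [Fintype V] (k : U → V → ℝ) : Prop where
  nonneg : ∀ x y, 0 ≤ k x y
  row : ∀ x, 𝔼 y, k x y = 1
  col : ∀ y, 𝔼 x, k x y = 1
  cor : ∀ (u : U → ℝ) (v : V → ℝ), 𝔼 x, u x = 0 → 𝔼 y, v y = 0 →
    |𝔼 x, 𝔼 y, k x y * (u x * v y)| ≤ ((𝔼 x, u x ^ 2) + 𝔼 y, v y ^ 2) / 4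
  hyp1 : ∀ (w : U → ℝ) (v : V → ℝ) (a b : ℝ), (∀ x, 0 ≤ w x) → (∀ y, 0 ≤ v y) → 0 ≤ a → 0 ≤ b →
    𝔼 x, w x ^ 4 ≤ a ^ 4 → 𝔼 y, v y ^ 2 ≤ b ^ 2 → 𝔼 x, 𝔼 y, k x y * (w x ^ 3 * v y) ≤ a ^ 3 * b
  hyp2 : ∀ (w : V → ℝ) (v : U → ℝ) (a b : ℝ), (∀ y, 0 ≤ w y) → (∀ x, 0 ≤ v x) → 0 ≤ a → 0 ≤ b →
    𝔼 y, w y ^ 4 ≤ a ^ 4 → 𝔼 x, v x ^ 2 ≤ b ^ 2 → 𝔼 x, 𝔼 y, k x y * (v x * w y ^ 3) ≤ a ^ 3 * b

/-- the basic coupling: uniform on the pairs with `b' ≠ b + e` -/
noncomputable def k3 (e b b' : Fin 3) : ℝ := if b' = b + e then 0 else 3 / 2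

/-! ### the tower of colour trees -/

abbrev St : Type := Fin 3 × ℕ

def qq (n : ℕ) : ℕ := n + 4

/-- a code of length three and distance two -/
def cw (q z : ℕ) (b : Fin 3) : ℕ := ![z / q, z % q, (z / q + z % q) % q] b

/-- the children (level `n`) of a state of level `n + 1` -/
def child (n : ℕ) (O : St) (b : Fin 3) : St := (b, 3 * cw (qq n) O.2 b + O.1.val)

/-- the state `t` of level `n` is not a child of the state `O` of level `n + 1` -/
def Rel (n : ℕ) (t O : St) : Prop := ∀ b, child n O b ≠ t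

/-- the shift of the coupling of the children of `t` (level `n + 1`) and `O` (level `n + 2`) -/
noncomputable def sh (n : ℕ) (t O : St) : Fin 3 :=
  Classical.epsilon fun e => ∀ b b', b' ≠ b + e → Rel n (child n t b') (child (n + 1) O b)

/-- the types (level `m + 1`) -/
def top (m a : ℕ) : St := (0, a * (qq m + 1))

/-- random choices of a tree of depth `n` -/
def UU (Λ : Type) : ℕ → Type
  | 0 => Unit
  | n + 1 => Fin 3 × (Λ → UU Λ n)

instance fintypeUU (Λ : Type) [Fintype Λ] [DecidableEq Λ] : (n : ℕ) → Fintype (UU Λ n)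
  | 0 => inferInstanceAs (Fintype Unit)
  | n + 1 => @instFintypeProd _ _ _ (@Pi.instFintype _ _ _ _ fun _ => fintypeUU Λ n)

instance nonemptyUU (Λ : Type) : (n : ℕ) → Nonempty (UU Λ n)
  | 0 => inferInstanceAs (Nonempty Unit)
  | n + 1 => ⟨(0, fun _ => Classical.choice (nonemptyUU Λ n))⟩

/-- the leaf reached from the state `O` of level `n` along the path `p` -/
def vl {Λ : Type} : (n : ℕ) → St → UU Λ n → (ℕ → Λ) → St
  | 0, O, _, _ => O
  | n + 1, O, u, p => vl n (child n O u.1) (u.2 (p n)) p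

/-- the coupling of the trees below `O` (level `n + 1`) and `t` (level `n`) -/
noncomputable def KK {Λ : Type} [Fintype Λ] : (n : ℕ) → St → St → UU Λ (n + 1) → UU Λ n → ℝ
  | 0, _, _, _, _ => 1
  | n + 1, O, t, u, v => k3 (sh n t O) u.1 v.1 *
      ∏ l, KK n (child (n + 1) O u.1) (child n t v.1) (u.2 l) (v.2 l)

/-- the 72 colours -/
abbrev Col : Type := Bool × Fin 3 × Fin 12

def toC (s : Bool) (O : St) : Col := (s, O.1, Fin.ofNat 12 O.2)

section Window

variable {Λ : Type} [Fintype Λ] [DecidableEq Λ] {c : ℕ}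

/-- test point of a window, seen as the upper end of an edge -/
def xo (m : ℕ) (pp : ℕ → Λ → Λ) (G : St) (S : Λ → Bool) (X : Λ → UU Λ (m + 1)) (α : Λ) : Col :=
  toC (S (pp (m + 1) α)) (vl (m + 1) G (X (pp (m + 1) α)) fun j => pp j α)

/-- test point of a window, seen as the lower end of an edge -/
def xi (m : ℕ) (pp : ℕ → Λ → Λ) (G : St) (S : Λ → Bool) (d : Λ → Fin 3) (y : Λ → UU Λ m)
    (α : Λ) : Col :=
  toC (S (pp (m + 1) α)) (vl m (child m G (d (pp (m + 1) α))) (y (pp m α)) fun j => pp j α)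

noncomputable def Fo (c0 : (Λ → Col) → Fin c) (m : ℕ) (pp : ℕ → Λ → Λ) (G : St) (χ : Fin c)
    (S : Λ → Bool) (_ : Unit) (X : Λ → UU Λ (m + 1)) : ℝ := ind (c0 (xo m pp G S X) = χ)

noncomputable def Fi (c0 : (Λ → Col) → Fin c) (m : ℕ) (pp : ℕ → Λ → Λ) (G : St) (χ : Fin c)
    (S : Λ → Bool) (d : Λ → Fin 3) (y : Λ → UU Λ m) : ℝ := ind (c0 (xi m pp G S d y) = χ)

/-- the coordinates whose block is outside `R` -/
def NR (blk : Λ → Λ) (R : Finset Λ) : Finset Λ := univ.filter fun i => blk i ∉ R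

/-- the block `ω` contains an influential coordinate when the world bits on `R` are given by `s` -/
def Bad {D U : Type} [Fintype D] [Fintype U] (γ τ : ℝ) (blk : Λ → Λ)
    (F : (Λ → Bool) → D → (Λ → U) → ℝ) (R : Finset Λ) (s : Λ → Bool) (ω : Λ) : Prop :=
  ω ∉ R ∧ ∃ i, blk i = ω ∧
    τ < 𝔼 S : Λ → Bool, 𝔼 d, infl i (Tn γ (NR blk R) (F (R.piecewise s S) d))

/-- the world bits `s` are bad for the window -/
def WBad (γ τ : ℝ) (c0 : (Λ → Col) → Fin c) (m : ℕ) (pp : ℕ → Λ → Λ) (π : Λ → Λ) (R : Finset Λ)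
    (s : Λ → Bool) : Prop :=
  ∃ (a : Fin (c + 1)) (χ : Fin c) (ω : Λ), Bad γ τ id (Fo c0 m pp (top m a) χ) R s ω ∨
    Bad γ τ π (Fi c0 m pp (top m a) χ) R s ω

/-- density of the colour `χ` -/
noncomputable def dens (c0 : (Λ → Col) → Fin c) (m : ℕ) (pp : ℕ → Λ → Λ) (G : St) (χ : Fin c)
    (R : Finset Λ) (s : Λ → Bool) : ℝ :=
  𝔼 S : Λ → Bool, 𝔼 X, Fo c0 m pp G χ (R.piecewise s S) () X

end Window

section Layers

variable {r n m : ℕ} {Sg : Type}

/-- labels of the layered label cover -/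
abbrev Lam (r n : ℕ) (Sg : Type) : Type := Fin r × Fin n → Sg

/-- projection from layer `j` to layer `j'` -/
def prj (ii : Fin r → Fin n) (ρ : Fin r × Fin n → Sg → Sg) (j j' : ℕ) (α : Lam r n Sg) :
    Lam r n Sg :=
  fun c => if j < c.1 ∧ (c.1 : ℕ) ≤ j' ∧ c.2 = ii c.1 then ρ c (α c) else α c

/-- the question of layer `j` -/
def nam (ii : Fin r → Fin n) (u v : Fin r × Fin n → ℕ) (j : ℕ) : Fin r × Fin n → ℕ :=
  fun c => if (c.1 : ℕ) ≤ j ∧ c.2 = ii c.1 then 2 * v c + 1 else 2 * u c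

/-- name of the vertex `x` of the cloud of the question `q` in layer `j` -/
noncomputable def vn [Fintype Sg] [DecidableEq Sg] (j : Fin r) (q : Fin r × Fin n → ℕ)
    (x : Lam r n Sg → Col) : ℕ :=
  Nat.pair (natI q) (Fintype.equivFin (Fin r × (Lam r n Sg → Col)) (j, x))

/-- the edges produced from a label cover instance -/
def IsEdge [Fintype Sg] [DecidableEq Sg] (r n : ℕ) (l : List (CP Sg Sg)) (e : ℕ × ℕ) : Prop :=
  ∃ t : Fin r × Fin n → CP Sg Sg, (∀ c, t c ∈ l) ∧ ∃ (ii : Fin r → Fin n) (j j' : Fin r)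
    (x y : Lam r n Sg → Col), j < j' ∧ (∀ α, x α ≠ y (prj ii (fun c => (t c).2.val) j j' α)) ∧
    e = (vn j (nam ii (fun c => (t c).1 0) (fun c => (t c).1 1) j) x,
      vn j' (nam ii (fun c => (t c).1 0) (fun c => (t c).1 1) j') y)

end Layers

/-- the arc digraph -/
def arc (E : EL) : EL :=
  E.flatMap fun a => (E.filter fun b => decide (a.2 = b.1)).map fun b =>
    (Nat.pair a.1 a.2, Nat.pair b.1 b.2)

/-- Hardness of colouring 72-colourable graphs. -/
def HardStmt : Prop :=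
  ∀ c : ℕ, ∃ f : CNF → EL, Vale.Agent.Lib.H23.PT f ∧ ∀ φ, (∀ e ∈ f φ, e.1 ≠ e.2) ∧
    (Sat φ → Colr (f φ) Col) ∧ (¬ Sat φ → ¬ Colr (f φ) (Fin c))

end Vale.Agent.P342
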