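import Vale.Agent.P342.Ops

/-! P342: a random chain of the layered label cover has no merging and no persistent labels.
Plan.  `bot ii e a = prj ii (fun c => π (e c)) (a last) r`.  Union bound over `θ = (ii, e)` uniform.
(1) For a window `a` and a block `t > a last` let `W ⊆ Fin n` be the set of the `i` such that for some pair
`ω ≠ ω'` in `R ii e a` the chosen coordinate where they differ is `(t, i)`; `card W ≤ L^2`, and `W` does not change when
`ii t` changes (`K1`).  If `bot` is not injective on `R` then `ii t ∈ W` for some such `t`.  By `expect_update` in `ii`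
the probability is at most `L^2 / n` for each `(a, t)`.
(2) For windows `a, a'` with `a last < a' 0` put `t = a' 0`, `c = (t, ii t)`.  Fix `ii` and `e`, and resample `e c`
(`expect_update`).  Enumerate every finset of at most `L` labels by `en : Finset Λ → Fin L → Λ` (surjective onto it);
for `k, k' : Fin L` let `f x = en (R ii (update e c ε) a) k c` for a chosen `ε` with `u ε = x` (by `K2` the choice does not matter),
`g` likewise with `v`, `a'`, `K3`.  If `bot a ω = bot a' ω'` then at the coordinate `c`: `π (e c) (ω c) = ω' c`.  So the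
probability is at most `L^2 δ` (if `L = 0` the sets are empty). -/

namespace Vale.Agent.P342

open Finset Vale.Agent.P325
open scoped BigOperators

theorem prj_comp {r n : ℕ} {Sg : Type} (ii : Fin r → Fin n) (ρ : Fin r × Fin n → Sg → Sg)
    {j j' j'' : ℕ} (h : j ≤ j') (h' : j' ≤ j'') (α : Lam r n Sg) :
    prj ii ρ j' j'' (prj ii ρ j j' α) = prj ii ρ j j'' α := by
  funext c
  unfold prj
  by_cases hc : c.2 = ii c.1
  · simp only [hc, and_true]
    split_ifs <;> first | rfl | omega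
  · simp only [hc, and_false, if_false]

theorem prob_union {Ω A : Type} [Fintype Ω] [Nonempty Ω] [Fintype A] (P : A → Ω → Prop) (c : A → ℝ)
    (h : ∀ a, 𝔼 ω, ind (P a ω) ≤ c a) (hc : ∑ a, c a < 1) : ∃ ω, ∀ a, ¬ P a ω := by
  have h1 : 𝔼 ω, ∑ a, ind (P a ω) < 1 := by
    rw [expect_sum_comm]
    exact (sum_le_sum fun a _ => h a).trans_lt hc
  obtain ⟨ω, -, h2⟩ := exists_lt_of_expect_lt univ_nonempty h1
  refine ⟨ω, fun a ha => ?_⟩
  have h3 := single_le_sum (f := fun a => ind (P a ω)) (fun a _ => ind_nonneg _) (mem_univ a)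
  rw [ind_of ha] at h3
  linarith

theorem prob_enum {X Sg E : Type} [Nonempty Sg] {L : ℕ} (u : E → ℕ) (RA : E → Finset X)
    (hL : ∀ ε, (RA ε).card ≤ L) (hd : ∀ ε ε', u ε = u ε' → RA ε = RA ε') (val : X → Sg) :
    ∃ f : Fin L → ℕ → Sg, ∀ ε, ∀ ω ∈ RA ε, ∃ k, f k (u ε) = val ω := by
  have h : ∀ x : ℕ, ∃ g : Fin L → Sg, ∀ ε, u ε = x → ∀ ω ∈ RA ε, ∃ k, g k = val ω := by
    intro x
    by_cases hx : ∃ ε, u ε = x
    · obtain ⟨ε₀, rfl⟩ := hx
      refine ⟨fun k => (((RA ε₀).toList.map val)[(k : ℕ)]?).getD (Classical.arbitrary Sg),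
        fun ε hε ω hω => ?_⟩
      rw [hd ε ε₀ hε, ← mem_toList] at hω
      obtain ⟨k, hk⟩ := List.getElem?_of_mem (List.mem_map_of_mem (f := val) hω)
      have h1 := (List.getElem?_eq_some_iff.1 hk).1
      rw [List.length_map, length_toList] at h1
      exact ⟨⟨k, h1.trans_le (hL _)⟩, by simp only [hk, Option.getD_some]⟩
    · exact ⟨fun _ => Classical.arbitrary Sg, fun ε hε => absurd ⟨ε, hε⟩ hx⟩
  choose g hg using h
  exact ⟨fun k x => g x k, fun ε => hg _ ε rfl⟩

theorem prob_pair {X Sg E : Type} [Nonempty Sg] [Fintype E] {L : ℕ} {u v : E → ℕ} {π : E → Sg → Sg}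
    {δ : ℝ} (hδ : ∀ f g : ℕ → Sg, 𝔼 ε, ind (π ε (f (u ε)) = g (v ε)) ≤ δ) (RA RB : E → Finset X)
    (hA : ∀ ε, (RA ε).card ≤ L) (hB : ∀ ε, (RB ε).card ≤ L)
    (dA : ∀ ε ε', u ε = u ε' → RA ε = RA ε') (dB : ∀ ε ε', v ε = v ε' → RB ε = RB ε')
    (val : X → Sg) : 𝔼 ε, ind (∃ ω ∈ RA ε, ∃ ω' ∈ RB ε, π ε (val ω) = val ω') ≤ L ^ 2 * δ := by
  obtain ⟨f, hf⟩ := prob_enum u RA hA dA val
  obtain ⟨g, hg⟩ := prob_enum v RB hB dB val
  have h1 := sum_le_card_nsmul univ _ _ fun (k : Fin L × Fin L) _ => hδ (f k.1) (g k.2)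
  rw [← expect_sum_comm] at h1
  refine le_trans (expect_le_expect fun ε _ => ?_) (h1.trans_eq (by simp [sq]))
  by_cases h : ∃ ω ∈ RA ε, ∃ ω' ∈ RB ε, π ε (val ω) = val ω'
  · rw [ind_of h]
    obtain ⟨ω, hω, ω', hω', h⟩ := h
    obtain ⟨k, hk⟩ := hf ε ω hω
    obtain ⟨k', hk'⟩ := hg ε ω' hω'
    exact le_trans (ind_of (by rw [hk, hk', h])).ge (single_le_sum
      (f := fun k : Fin L × Fin L => ind (π ε (f k.1 (u ε)) = g k.2 (v ε)))
      (fun _ _ => ind_nonneg _) (mem_univ (k, k')))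
  · rw [ind_of_not h]
    exact sum_nonneg fun _ _ => ind_nonneg _

theorem prob_mem {n : ℕ} (W : Finset (Fin n)) : 𝔼 i, ind (i ∈ W) = W.card / n := by
  rw [Fintype.expect_eq_sum_div_card, Fintype.card_fin]
  simp [ind_eq_ite]

theorem good_chain {r n m L : ℕ} {Sg E : Type} [Fintype Sg] [DecidableEq Sg] [Nonempty Sg]
    [Fintype E] [Nonempty E] (hn : 0 < n) (u v : E → ℕ) (π : E → Sg → Sg) {δ : ℝ}
    (hδ : ∀ f g : ℕ → Sg, 𝔼 ε, ind (π ε (f (u ε)) = g (v ε)) ≤ δ)
    (R : (Fin r → Fin n) → (Fin r × Fin n → E) → (Fin (m + 1) → Fin r) → Finset (Lam r n Sg))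
    (hL : ∀ ii e a, (R ii e a).card ≤ L)
    (K1 : ∀ ii e a t i, StrictMono a → a (Fin.last m) < t →
      R (Function.update ii t i) e a = R ii e a)
    (K2 : ∀ ii e a t ε ε', StrictMono a → a (Fin.last m) < t → u ε = u ε' →
      R ii (Function.update e (t, ii t) ε) a = R ii (Function.update e (t, ii t) ε') a)
    (K3 : ∀ ii e a t ε ε', StrictMono a → t ≤ a 0 → v ε = v ε' →
      R ii (Function.update e (t, ii t) ε) a = R ii (Function.update e (t, ii t) ε') a)
    (hsmall : (r : ℝ) ^ (m + 2) * L ^ 2 / n + (r : ℝ) ^ (2 * (m + 1)) * L ^ 2 * δ < 1) :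
    ∃ ii e, (∀ a : Fin (m + 1) → Fin r, StrictMono a →
        Set.InjOn (prj ii (fun c => π (e c)) (a (Fin.last m)) r) (R ii e a)) ∧
      ∀ a a' : Fin (m + 1) → Fin r, StrictMono a → StrictMono a' → a (Fin.last m) < a' 0 →
        ∀ ω ∈ R ii e a, ∀ ω' ∈ R ii e a', prj ii (fun c => π (e c)) (a (Fin.last m)) r ω ≠
          prj ii (fun c => π (e c)) (a' (Fin.last m)) r ω' := by
  have : Nonempty (Fin n) := ⟨⟨0, hn⟩⟩
  have hd : ∀ ω ω' : Lam r n Sg, ∃ i : Fin n, ω ≠ ω' → ∃ t, ω (t, i) ≠ ω' (t, i) := by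
    intro ω ω'
    by_cases h : ω = ω'
    · exact ⟨⟨0, hn⟩, fun h' => absurd h h'⟩
    · obtain ⟨c, hc⟩ := Function.ne_iff.1 h
      exact ⟨c.2, fun _ => ⟨c.1, hc⟩⟩
  choose d hd using hd
  have hδ0 : 0 ≤ δ := (expect_nonneg fun _ _ => ind_nonneg _).trans
    (hδ (fun _ => Classical.arbitrary Sg) fun _ => Classical.arbitrary Sg)
  obtain ⟨θ, hθ⟩ := prob_union (Ω := (Fin r → Fin n) × (Fin r × Fin n → E))
    (A := ((Fin (m + 1) → Fin r) × Fin r) ⊕ ((Fin (m + 1) → Fin r) × (Fin (m + 1) → Fin r)))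
    (Sum.elim
      (fun a θ => StrictMono a.1 ∧ a.1 (Fin.last m) < a.2 ∧
        θ.1 a.2 ∈ (R θ.1 θ.2 a.1 ×ˢ R θ.1 θ.2 a.1).image fun p => d p.1 p.2)
      fun a θ => StrictMono a.1 ∧ StrictMono a.2 ∧ a.1 (Fin.last m) < a.2 0 ∧
        ∃ ω ∈ R θ.1 θ.2 a.1, ∃ ω' ∈ R θ.1 θ.2 a.2,
          π (θ.2 (a.2 0, θ.1 (a.2 0))) (ω (a.2 0, θ.1 (a.2 0))) = ω' (a.2 0, θ.1 (a.2 0)))
    (Sum.elim (fun _ => L ^ 2 / n) fun _ => L ^ 2 * δ)
    (by
      rintro (⟨a, t⟩ | ⟨a, a'⟩)
      · simp only [Sum.elim_inl]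
        rw [← univ_product_univ, expect_product, expect_comm]
        refine expect_le univ_nonempty fun e _ => ?_
        rw [expect_update t]
        refine expect_le univ_nonempty fun ii _ => ?_
        refine le_trans (expect_le_expect (g := fun i =>
          ind (i ∈ (R ii e a ×ˢ R ii e a).image fun p => d p.1 p.2)) fun i _ => ind_mono ?_) ?_
        · rintro ⟨h1, h2, h3⟩
          dsimp only at h3
          rwa [K1 ii e a t i h1 h2, Function.update_self] at h3
        · rw [prob_mem]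
          have h1 : ((R ii e a ×ˢ R ii e a).image fun p => d p.1 p.2).card ≤ L ^ 2 :=
            card_image_le.trans (by rw [card_product, sq]; exact Nat.mul_le_mul (hL _ _ _) (hL _ _ _))
          exact div_le_div_of_nonneg_right (by exact_mod_cast h1) (Nat.cast_nonneg n)
      · simp only [Sum.elim_inr]
        rw [← univ_product_univ, expect_product]
        refine expect_le univ_nonempty fun ii _ => ?_
        rw [expect_update (a' 0, ii (a' 0))]
        refine expect_le univ_nonempty fun e _ => ?_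
        by_cases h : StrictMono a ∧ StrictMono a' ∧ a (Fin.last m) < a' 0
        · refine le_trans (expect_le_expect fun ε _ => ind_mono ?_) (prob_pair hδ
            (fun ε => R ii (Function.update e (a' 0, ii (a' 0)) ε) a)
            (fun ε => R ii (Function.update e (a' 0, ii (a' 0)) ε) a') (fun _ => hL _ _ _)
            (fun _ => hL _ _ _) (fun ε ε' => K2 ii e a _ ε ε' h.1 h.2.2)
            (fun ε ε' => K3 ii e a' _ ε ε' h.2.1 le_rfl) fun ω => ω (a' 0, ii (a' 0)))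
          rintro ⟨-, -, -, h3⟩
          dsimp only at h3
          rwa [Function.update_self] at h3
        · exact expect_le univ_nonempty fun ε _ =>
            (ind_of_not fun h' => h ⟨h'.1, h'.2.1, h'.2.2.1⟩).le.trans (by positivity))
    (by
      refine lt_of_eq_of_lt ?_ hsmall
      simp only [Fintype.sum_sum_type, Sum.elim_inl, Sum.elim_inr, sum_const, card_univ,
        Fintype.card_prod, Fintype.card_pi, Fintype.card_fin, prod_const, nsmul_eq_mul]
      push_cast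
      ring)
  refine ⟨θ.1, θ.2, fun a ha ω hω ω' hω' h => ?_, fun a a' ha ha' hl ω hω ω' hω' h => ?_⟩
  · by_contra hne
    obtain ⟨t, ht⟩ := hd ω ω' hne
    have h1 := congrFun h (t, d ω ω')
    unfold prj at h1
    split_ifs at h1 with h2
    · exact hθ (Sum.inl (a, t)) ⟨ha, h2.1,
        mem_image.2 ⟨(ω, ω'), mem_product.2 ⟨hω, hω'⟩, h2.2.2⟩⟩
    · exact ht h1
  · have h1 := congrFun h (a' 0, θ.1 (a' 0))
    unfold prj at h1
    rw [if_pos ⟨hl, (a' 0).2.le, rfl⟩,
      if_neg fun h2 => not_le.2 h2.1 (ha'.monotone (Fin.zero_le _))] at h1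
    exact hθ (Sum.inr (a, a')) ⟨ha, ha', hl, ω, hω, ω', hω', h1⟩

end Vale.Agent.P342
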