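import Vale.Agent.P342.Defs

/-! P342: the reduction from label cover to graphs.
Plan.  `lc_same`: `Sg = A × B`, the map of a constraint is `(a, b) ↦ (a₀, π a)` (`PT.map`, `pt_mk`); labels
`(f x, b₀)` and `(a₀, g x)`; for soundness use the first and second components.
`red_pt`: `g l = (tuples (r * n) l).flatMap fun t => ...` with `finProdFinEquiv`; for a tuple `t` distinguish
cases on the code of the family of maps (`pt_codeFun`, `pt_caseCode`); for a fixed family the list of the admissible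
`(ii, j, j', x, y)` is a constant list (`pt_mapConst`), the names are `pt_pair (pt_natI ..) (PT.const _)` and every entry of
`nam` is a case distinction that does not depend on the input.
`red_loop`: the second components of the names differ since `j ≠ j'`.
`red_complete`: colour `N` by `x (lab q)` where `q = Function.invFun natI (unpair N).1`, `(j, x)` is decoded from
`(unpair N).2`, and `lab q c = if q c % 2 = 1 then g (q c / 2) else f (q c / 2)`; then
`prj .. j j' (lab (nam j)) = lab (nam j')` for `j ≤ j'`. -/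

namespace Vale.Agent.P342

open Finset Vale.Agent.P325 Vale.Agent.Lib.H23
open scoped BigOperators

theorem lc_same (h : LCStmt) {δ : ℝ} (hδ : 0 < δ) : ∃ (Sg : Type) (_ : Fintype Sg)
    (_ : DecidableEq Sg) (_ : Nonempty Sg) (f : CNF → List (CP Sg Sg)), PT f ∧
    ∀ φ, f φ ≠ [] ∧ (Sat φ → ∃ a b, ∀ c ∈ f φ, satP a b c) ∧
      (¬ Sat φ → ∀ a b, avg (f φ) (fun c => ind (satP a b c)) ≤ δ) := by
  obtain ⟨A, B, iA, dA, ⟨a0⟩, iB, dB, ⟨b0⟩, r, hr, H⟩ := h δ hδ
  let F : (A → B) → (A × B → A × B) := fun π p => (a0, π p.1)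
  refine ⟨A × B, inferInstance, inferInstance, ⟨(a0, b0)⟩,
    fun φ => (r φ).map fun c => (c.1, ⟨F c.2.val⟩), ?_, fun φ => ⟨?_, fun hs => ?_, fun hs a b => ?_⟩⟩
  · exact PT.map (f := fun (_ : CNF) (c : CP A B) => ((c.1, ⟨F c.2.val⟩) : CP (A × B) (A × B)))
      (PT.pair PT.snd'.fst (pt_mk F PT.snd'.snd)) hr
  · simpa using (H φ).1
  · obtain ⟨f, g, hfg⟩ := (H φ).2.1 hs
    refine ⟨fun x => (f x, b0), fun x => (a0, g x), fun c hc => ?_⟩
    obtain ⟨c', hc', rfl⟩ := List.mem_map.1 hc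
    exact Prod.ext rfl (hfg c' hc')
  · rw [avg_map]
    refine le_trans (avg_mono fun c _ => ind_mono fun hc => ?_)
      ((H φ).2.2 hs (fun x => (a x).1) fun x => (b x).2)
    exact congrArg Prod.snd hc

variable {Sg : Type} [Fintype Sg] [DecidableEq Sg]

/-- the finite data of an edge -/
abbrev red_Om (r n : ℕ) (Sg : Type) : Type :=
  (Fin r → Fin n) × Fin r × Fin r × (Lam r n Sg → Col) × (Lam r n Sg → Col)

def red_ok {r n : ℕ} (ω : red_Om r n Sg) (ρ : Fin r × Fin n → Sg → Sg) : Prop :=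
  ω.2.1 < ω.2.2.1 ∧ ∀ α, ω.2.2.2.1 α ≠ ω.2.2.2.2 (prj ω.1 ρ ω.2.1 ω.2.2.1 α)

noncomputable def red_edge {r n : ℕ} (ω : red_Om r n Sg) (t : Fin r × Fin n → CP Sg Sg) : ℕ × ℕ :=
  (vn ω.2.1 (nam ω.1 (fun c => (t c).1 0) (fun c => (t c).1 1) ω.2.1) ω.2.2.2.1,
    vn ω.2.2.1 (nam ω.1 (fun c => (t c).1 0) (fun c => (t c).1 1) ω.2.2.1) ω.2.2.2.2)

theorem red_pt_vn {α : Type} [Enc α] {r n : ℕ} {t : α → Fin r × Fin n → CP Sg Sg}
    (ht : ∀ c, PT fun z => t z c) (ii : Fin r → Fin n) (j : Fin r) (x : Lam r n Sg → Col) :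
    PT fun z => vn j (nam ii (fun c => (t z c).1 0) (fun c => (t z c).1 1) j) x := by
  refine pt_pair (pt_natI fun c => ?_) (PT.const _)
  unfold nam
  by_cases hc : (c.1 : ℕ) ≤ j ∧ c.2 = ii c.1
  · simp only [if_pos hc]
    exact PT.add (PT.mul (PT.const 2) (pt_apply (ht c).fst 1)) (PT.const 1)
  · simp only [if_neg hc]
    exact PT.mul (PT.const 2) (pt_apply (ht c).fst 0)

open Classical in
noncomputable def red_row {r n : ℕ} (t : Fin r × Fin n → CP Sg Sg) : EL :=
  univ.toList.flatMap fun ω : red_Om r n Sg =>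
    if red_ok ω (fun c => (t c).2.val) then [red_edge ω t] else []

theorem red_pt_row {α : Type} [Enc α] {r n : ℕ} {t : α → Fin r × Fin n → CP Sg Sg}
    (ht : ∀ c, PT fun z => t z c) : PT fun z => red_row (t z) := by
  classical
  refine pt_flatMapConst _ fun ω => ?_
  have h1 : PT fun z => (⟨fun c => (t z c).2.val⟩ : Code (Fin r × Fin n → Sg → Sg)) :=
    pt_codeFun (k := fun z c => (t z c).2.val) fun c => (ht c).snd
  refine pt_caseCode (g := fun ρ z => if red_ok ω ρ then [red_edge ω (t z)] else []) h1 fun ρ => ?_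
  by_cases hω : red_ok ω ρ
  · simp only [if_pos hω]
    exact PT.cons (PT.pair (red_pt_vn ht _ _ _) (red_pt_vn ht _ _ _)) (PT.const [])
  · simp only [if_neg hω]
    exact PT.const _

theorem red_mem_row {r n : ℕ} {t : Fin r × Fin n → CP Sg Sg} {e : ℕ × ℕ} :
    e ∈ red_row t ↔ ∃ ω, red_ok ω (fun c => (t c).2.val) ∧ e = red_edge ω t := by
  unfold red_row
  rw [List.mem_flatMap]
  refine exists_congr fun ω => ?_
  by_cases hω : red_ok ω (fun c => (t c).2.val) <;> simp [hω]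

theorem red_pt (r n : ℕ) : ∃ g : List (CP Sg Sg) → EL, PT g ∧ ∀ l e, e ∈ g l ↔ IsEdge r n l e := by
  refine ⟨fun l => (tuples (r * n) l).flatMap fun s => red_row fun c => s (finProdFinEquiv c),
    ?_, fun l e => ?_⟩
  · exact Vale.Agent.P333.pt_flatMap
      (f := fun (_ : List (CP Sg Sg)) (s : Fin (r * n) → CP Sg Sg) =>
        red_row fun c => s (finProdFinEquiv c))
      (red_pt_row fun c => pt_apply PT.snd' _) (pt_tuples _ PT.id)
  · rw [List.mem_flatMap]
    constructor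
    · rintro ⟨s, hs, he⟩
      obtain ⟨⟨ii, j, j', x, y⟩, hω, rfl⟩ := red_mem_row.1 he
      exact ⟨_, fun c => mem_tuples.1 hs _, ii, j, j', x, y, hω.1, hω.2, rfl⟩
    · rintro ⟨t, ht, ii, j, j', x, y, h1, h2, rfl⟩
      refine ⟨fun i => t (finProdFinEquiv.symm i), mem_tuples.2 fun i => ht _, ?_⟩
      simp only [Equiv.symm_apply_apply]
      exact red_mem_row.2 ⟨(ii, j, j', x, y), ⟨h1, h2⟩, rfl⟩

theorem red_loop {r n : ℕ} {l : List (CP Sg Sg)} {e : ℕ × ℕ} (h : IsEdge r n l e) : e.1 ≠ e.2 := by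
  obtain ⟨t, _, ii, j, j', x, y, h1, _, rfl⟩ := h
  intro he
  have h2 := (Fintype.equivFin _).injective (Fin.ext (Nat.pair_eq_pair.1 he).2)
  exact h1.ne (congrArg Prod.fst h2)

/-- the labels attached to a question -/
def red_lab {r n : ℕ} (a b : ℕ → Sg) (q : Fin r × Fin n → ℕ) : Lam r n Sg :=
  fun c => if q c % 2 = 1 then b (q c / 2) else a (q c / 2)

omit [Fintype Sg] [DecidableEq Sg] in
theorem red_lab_nam {r n : ℕ} (a b : ℕ → Sg) (ii : Fin r → Fin n) (u v : Fin r × Fin n → ℕ)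
    (j : ℕ) (c : Fin r × Fin n) : red_lab a b (nam ii u v j) c =
      if (c.1 : ℕ) ≤ j ∧ c.2 = ii c.1 then b (v c) else a (u c) := by
  unfold red_lab nam
  by_cases hc : (c.1 : ℕ) ≤ j ∧ c.2 = ii c.1
  · simp only [if_pos hc]
    rw [if_pos (by omega), show (2 * v c + 1) / 2 = v c by omega]
  · simp only [if_neg hc]
    rw [if_neg (by omega), show (2 * u c) / 2 = u c by omega]

noncomputable def red_col (r n : ℕ) (a b : ℕ → Sg) (N : ℕ) : Col :=
  if h : (Nat.unpair N).2 < Fintype.card (Fin r × (Lam r n Sg → Col)) then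
    ((Fintype.equivFin _).symm ⟨_, h⟩).2 (red_lab a b (Function.invFun natI (Nat.unpair N).1))
  else default

theorem red_col_vn {r n : ℕ} (a b : ℕ → Sg) (j : Fin r) (q : Fin r × Fin n → ℕ)
    (x : Lam r n Sg → Col) : red_col r n a b (vn j q x) = x (red_lab a b q) := by
  unfold red_col vn
  simp only [Nat.unpair_pair, Fin.is_lt, dif_pos, Fin.eta, Equiv.symm_apply_apply]
  rw [Function.leftInverse_invFun natI_injective]

theorem red_complete {r n : ℕ} {l : List (CP Sg Sg)} {a b : ℕ → Sg} (h : ∀ c ∈ l, satP a b c) :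
    ∃ col : ℕ → Col, ∀ e, IsEdge r n l e → col e.1 ≠ col e.2 := by
  refine ⟨red_col r n a b, ?_⟩
  rintro e ⟨t, ht, ii, j, j', x, y, h1, h2, rfl⟩
  dsimp only
  rw [red_col_vn, red_col_vn]
  have h3 : (j : ℕ) < j' := h1
  have key : red_lab a b (nam ii (fun c => (t c).1 0) (fun c => (t c).1 1) j') =
      prj ii (fun c => (t c).2.val) j j'
        (red_lab a b (nam ii (fun c => (t c).1 0) (fun c => (t c).1 1) j)) := by
    funext c
    unfold prj
    rw [red_lab_nam, red_lab_nam]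
    by_cases hc : c.2 = ii c.1
    · by_cases h4 : (c.1 : ℕ) ≤ j
      · rw [if_pos ⟨by omega, hc⟩, if_neg (fun h => by omega), if_pos ⟨h4, hc⟩]
      · by_cases h5 : (c.1 : ℕ) ≤ j'
        · rw [if_pos ⟨h5, hc⟩, if_pos ⟨by omega, h5, hc⟩, if_neg fun h => h4 h.1]
          exact (h _ (ht c)).symm
        · rw [if_neg fun h => h5 h.1, if_neg fun h => h5 h.2.1, if_neg fun h => h4 h.1]
    · rw [if_neg fun h => hc h.2, if_neg fun h => hc h.2.2, if_neg fun h => hc h.2]
  rw [key]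
  exact h2 _

end Vale.Agent.P342
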