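import Vale.Agent.P342.Ops

/-! P342: the regularity lemma.
Plan.  `reg_abs`: let `Ls 0 = 0`, `Ls (t+1) = Ls t + M * 2 ^ Ls t`.  By induction on `t`: there is `R` with
`R.card ≤ Ls t` such that the conclusion holds or `t * (β * η) ≤ ∑ κ, Φ κ R`.  Step: `R₁ = R ∪` the image of
`univ ×ˢ R.powerset` under `(κ, A) ↦` a chosen `ω` with `bad κ R (fun x => decide (x ∈ A)) ω` if there is one
(use `Finset.biUnion` of sets of size at most one); then `(∃ ω, bad κ R s ω) → ∃ ω ∈ R₁, bad κ R s ω` by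
`A = R.filter (s · = true)` and the invariance hypothesis.  Take `t > M / (β η)`.
`pot_step`: `Φ R = E_S E_d E_x (Tn γ (NR blk R) (F S d) x)^2`; by `expect_piecewise` (with `U = Bool`), for every
`N`, `E_S E_d E_x (Tn γ N (F S d) x)^2 = E_s E_S E_d E_x (Tn γ N (F (R.piecewise s S) d) x)^2`; for fixed `s`
use `energy_gain` (if `s` is bad, with the coordinate `i ∈ NR blk R`, `i ∉ NR blk R₁`) or `energy_mono`.
`reg`: `K = Fin (c+1) × Fin c × Bool`, `η / card K`, union bound with `ind`. -/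

namespace Vale.Agent.P342

open Finset Vale.Agent.P325
open scoped BigOperators

theorem reg_abs (M : ℕ) {η β : ℝ} (hη : 0 < η) (hβ : 0 < β) : ∃ L : ℕ,
    ∀ (Λ K : Type) [Fintype Λ] [DecidableEq Λ] [Fintype K], Fintype.card K ≤ M →
    ∀ (Φ : K → Finset Λ → ℝ) (bad : K → Finset Λ → (Λ → Bool) → Λ → Prop),
    (∀ κ R, 0 ≤ Φ κ R ∧ Φ κ R ≤ 1) →
    (∀ κ R s s' ω, (∀ x ∈ R, s x = s' x) → bad κ R s ω → bad κ R s' ω) →
    (∀ κ R R₁, R ⊆ R₁ → Φ κ R + β * 𝔼 s, ind (∃ ω ∈ R₁, bad κ R s ω) ≤ Φ κ R₁) →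
    ∃ R : Finset Λ, R.card ≤ L ∧ ∀ κ, 𝔼 s, ind (∃ ω, bad κ R s ω) ≤ η := by
  have key : ∀ t : ℕ, ∃ L : ℕ, ∀ (Λ K : Type) [Fintype Λ] [DecidableEq Λ] [Fintype K],
      ∀ (Φ : K → Finset Λ → ℝ) (bad : K → Finset Λ → (Λ → Bool) → Λ → Prop),
      (∀ κ R, 0 ≤ Φ κ R ∧ Φ κ R ≤ 1) →
      (∀ κ R s s' ω, (∀ x ∈ R, s x = s' x) → bad κ R s ω → bad κ R s' ω) →
      (∀ κ R R₁, R ⊆ R₁ → Φ κ R + β * 𝔼 s, ind (∃ ω ∈ R₁, bad κ R s ω) ≤ Φ κ R₁) →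
      ∃ R : Finset Λ, R.card ≤ L ∧
        ((∀ κ, 𝔼 s, ind (∃ ω, bad κ R s ω) ≤ η) ∨ t * (β * η) ≤ ∑ κ, Φ κ R) := by
    intro t
    induction t with
    | zero =>
      refine ⟨0, fun Λ K _ _ _ Φ bad h1 _ _ => ⟨∅, le_rfl, Or.inr ?_⟩⟩
      rw [Nat.cast_zero, zero_mul]
      exact sum_nonneg fun κ _ => (h1 κ _).1
    | succ t ih =>
      obtain ⟨L, hL⟩ := ih
      refine ⟨L + 2 ^ L, fun Λ K _ _ _ Φ bad h1 h2 h3 => ?_⟩
      obtain ⟨R, hR, h⟩ := hL Λ K Φ bad h1 h2 h3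
      by_cases hc : ∀ κ, 𝔼 s, ind (∃ ω, bad κ R s ω) ≤ η
      · exact ⟨R, hR.trans (Nat.le_add_right _ _), Or.inl hc⟩
      replace h := h.resolve_left hc
      obtain ⟨κ₀, hκ⟩ := not_forall.1 hc
      have hT : ∀ A : Finset Λ, ∃ T : Finset Λ, T.card ≤ 1 ∧
          ∀ ω, bad κ₀ R (fun x => decide (x ∈ A)) ω →
            ∃ ω ∈ T, bad κ₀ R (fun x => decide (x ∈ A)) ω := by
        intro A
        by_cases h4 : ∃ ω, bad κ₀ R (fun x => decide (x ∈ A)) ω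
        · obtain ⟨ω, hω⟩ := h4
          exact ⟨{ω}, (card_singleton ω).le, fun _ _ => ⟨ω, mem_singleton_self ω, hω⟩⟩
        · exact ⟨∅, by simp, fun ω hω => absurd ⟨ω, hω⟩ h4⟩
      choose T hT1 hT2 using hT
      have hsub : R ⊆ R ∪ R.powerset.biUnion T := subset_union_left
      refine ⟨R ∪ R.powerset.biUnion T, (card_union_le _ _).trans (add_le_add hR
        ((card_biUnion_le_card_mul _ _ 1 fun A _ => hT1 A).trans ?_)), Or.inr ?_⟩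
      · rw [mul_one, card_powerset]
        exact Nat.pow_le_pow_right two_pos hR
      have h5 : 𝔼 s, ind (∃ ω, bad κ₀ R s ω) ≤
          𝔼 s, ind (∃ ω ∈ R ∪ R.powerset.biUnion T, bad κ₀ R s ω) := by
        refine expect_le_expect fun s _ => ind_mono ?_
        rintro ⟨ω, hω⟩
        have e : ∀ x ∈ R, s x = decide (x ∈ R.filter fun x => s x = true) := fun x hx => by
          simp [hx]
        obtain ⟨ω', h6, h7⟩ := hT2 _ ω (h2 κ₀ R _ _ ω e hω)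
        exact ⟨ω', mem_union_right _ (mem_biUnion.2 ⟨_, mem_powerset.2 (filter_subset _ _), h6⟩),
          h2 κ₀ R _ _ ω' (fun x hx => (e x hx).symm) h7⟩
      have h6 := sum_le_sum fun κ (_ : κ ∈ univ) => h3 κ R _ hsub
      rw [sum_add_distrib] at h6
      have h7 := single_le_sum
        (f := fun κ => β * 𝔼 s, ind (∃ ω ∈ R ∪ R.powerset.biUnion T, bad κ R s ω))
        (fun κ _ => mul_nonneg hβ.le (expect_nonneg fun _ _ => ind_nonneg _)) (mem_univ κ₀)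
      have h8 := mul_le_mul_of_nonneg_left ((not_le.1 hκ).le.trans h5) hβ.le
      push_cast
      linarith
  obtain ⟨t, ht⟩ := exists_nat_gt (M / (β * η))
  obtain ⟨L, hL⟩ := key t
  refine ⟨L, fun Λ K _ _ _ hK Φ bad h1 h2 h3 => ?_⟩
  obtain ⟨R, hR, h⟩ := hL Λ K Φ bad h1 h2 h3
  refine ⟨R, hR, h.resolve_right fun h4 => ?_⟩
  have h5 := sum_le_card_nsmul univ _ _ fun κ _ => (h1 κ R).2
  rw [card_univ, nsmul_eq_mul, mul_one] at h5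
  rw [div_lt_iff₀ (mul_pos hβ hη)] at ht
  have h6 : (Fintype.card K : ℝ) ≤ M := Nat.cast_le.2 hK
  linarith

variable {Λ D U : Type} [Fintype Λ] [DecidableEq Λ] [Fintype D] [Nonempty D] [Fintype U]
  [Nonempty U]

theorem Bad.congr {γ τ : ℝ} {blk : Λ → Λ} {F : (Λ → Bool) → D → (Λ → U) → ℝ} {R : Finset Λ}
    {s s' : Λ → Bool} {ω : Λ} (hs : ∀ x ∈ R, s x = s' x) (h : Bad γ τ blk F R s ω) :
    Bad γ τ blk F R s' ω := by
  have e : ∀ S, R.piecewise s S = R.piecewise s' S := fun S =>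
    piecewise_congr R hs fun _ _ => rfl
  unfold Bad at h ⊢
  simpa only [e] using h

theorem pot_step {γ τ : ℝ} (h0 : 0 ≤ γ) (h1 : γ ≤ 1) (blk : Λ → Λ)
    (F : (Λ → Bool) → D → (Λ → U) → ℝ) {R R₁ : Finset Λ} (hR : R ⊆ R₁) :
    (𝔼 S, 𝔼 d, 𝔼 x, Tn γ (NR blk R) (F S d) x ^ 2) +
        γ * τ * 𝔼 s, ind (∃ ω ∈ R₁, Bad γ τ blk F R s ω) ≤
      𝔼 S, 𝔼 d, 𝔼 x, Tn γ (NR blk R₁) (F S d) x ^ 2 := by
  have e : ∀ N : Finset Λ, (𝔼 S, 𝔼 d, 𝔼 x, Tn γ N (F S d) x ^ 2) =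
      𝔼 s : Λ → Bool, 𝔼 S : Λ → Bool, 𝔼 d, 𝔼 x, Tn γ N (F (R.piecewise s S) d) x ^ 2 := fun N => by
    rw [← expect_piecewise R fun S => 𝔼 d, 𝔼 x, Tn γ N (F S d) x ^ 2, expect_comm]
  have hN : NR blk R₁ ⊆ NR blk R := fun i hi =>
    mem_filter.2 ⟨mem_univ i, fun h => (mem_filter.1 hi).2 (hR h)⟩
  rw [e, e, mul_expect, ← expect_add_distrib]
  refine expect_le_expect fun s _ => ?_
  by_cases h : ∃ ω ∈ R₁, Bad γ τ blk F R s ω
  · rw [ind_of h, mul_one]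
    obtain ⟨ω, h2, h3, i, rfl, h4⟩ := h
    refine (add_le_add le_rfl (mul_le_mul_of_nonneg_left h4.le h0)).trans ?_
    rw [mul_expect, ← expect_add_distrib]
    refine expect_le_expect fun S _ => ?_
    rw [mul_expect, ← expect_add_distrib]
    exact expect_le_expect fun d _ => energy_gain h0 h1 hN (mem_filter.2 ⟨mem_univ i, h3⟩)
      (fun h => (mem_filter.1 h).2 h2) _
  · rw [ind_of_not h, mul_zero, add_zero]
    exact expect_le_expect fun S _ => expect_le_expect fun d _ => energy_mono h0 h1 hN _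

theorem reg_energy {γ : ℝ} (h0 : 0 ≤ γ) (h1 : γ ≤ 1) (N : Finset Λ)
    {F : (Λ → Bool) → D → (Λ → U) → ℝ} (hF : ∀ S d x, 0 ≤ F S d x ∧ F S d x ≤ 1) :
    0 ≤ (𝔼 S, 𝔼 d, 𝔼 x, Tn γ N (F S d) x ^ 2) ∧ (𝔼 S, 𝔼 d, 𝔼 x, Tn γ N (F S d) x ^ 2) ≤ 1 :=
  ⟨expect_nonneg fun _ _ => expect_nonneg fun _ _ => expect_nonneg fun _ _ => sq_nonneg _,
    expect_le univ_nonempty fun S _ => expect_le univ_nonempty fun d _ =>
      expect_le univ_nonempty fun x _ =>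
        pow_le_one₀ (Tn_mem h0 h1 N (hF S d) x).1 (Tn_mem h0 h1 N (hF S d) x).2⟩

theorem WBad.congr {c m : ℕ} {γ τ : ℝ} {c0 : (Λ → Col) → Fin c} {pp : ℕ → Λ → Λ} {π : Λ → Λ}
    {R : Finset Λ} {s s' : Λ → Bool} (hs : ∀ x ∈ R, s x = s' x) (h : WBad γ τ c0 m pp π R s) :
    WBad γ τ c0 m pp π R s' := by
  obtain ⟨a, χ, ω, h⟩ := h
  exact ⟨a, χ, ω, h.imp (Bad.congr hs) (Bad.congr hs)⟩

theorem reg (c m : ℕ) {γ τ η : ℝ} (h0 : 0 < γ) (h1 : γ ≤ 1) (hτ : 0 < τ) (hη : 0 < η) : ∃ L : ℕ,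
    ∀ (Λ : Type) [Fintype Λ] [DecidableEq Λ] (c0 : (Λ → Col) → Fin c) (pp : ℕ → Λ → Λ)
      (π : Λ → Λ), ∃ R : Finset Λ, R.card ≤ L ∧ 𝔼 s, ind (WBad γ τ c0 m pp π R s) ≤ η := by
  obtain ⟨M, hM⟩ : ∃ M, M = Fintype.card ((Fin (c + 1) × Fin c) ⊕ (Fin (c + 1) × Fin c)) := ⟨_, rfl⟩
  obtain ⟨L, hL⟩ := reg_abs M (η := η / (M + 1)) (by positivity) (mul_pos h0 hτ)
  refine ⟨L, fun Λ _ _ c0 pp π => ?_⟩
  obtain ⟨R, hR, h⟩ := hL Λ ((Fin (c + 1) × Fin c) ⊕ (Fin (c + 1) × Fin c)) hM.ge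
    (Sum.elim (fun κ R => 𝔼 S, 𝔼 d, 𝔼 x, Tn γ (NR id R) (Fo c0 m pp (top m κ.1) κ.2 S d) x ^ 2)
      fun κ R => 𝔼 S, 𝔼 d, 𝔼 x, Tn γ (NR π R) (Fi c0 m pp (top m κ.1) κ.2 S d) x ^ 2)
    (Sum.elim (fun κ => Bad γ τ id (Fo c0 m pp (top m κ.1) κ.2))
      fun κ => Bad γ τ π (Fi c0 m pp (top m κ.1) κ.2))
    (by
      rintro (κ | κ) R
      · exact reg_energy h0.le h1 _ fun _ _ _ => ⟨ind_nonneg _, ind_le_one _⟩
      · exact reg_energy h0.le h1 _ fun _ _ _ => ⟨ind_nonneg _, ind_le_one _⟩)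
    (by
      rintro (κ | κ) R s s' ω hs h
      · exact Bad.congr hs h
      · exact Bad.congr hs h)
    (by
      rintro (κ | κ) R R₁ hR
      · exact pot_step h0.le h1 _ _ hR
      · exact pot_step h0.le h1 _ _ hR)
  refine ⟨R, hR, ?_⟩
  have h2 := sum_le_card_nsmul univ _ _ fun κ _ => h κ
  rw [card_univ, ← hM, nsmul_eq_mul, ← expect_sum_comm] at h2
  refine le_trans (expect_le_expect fun s _ => ?_) (h2.trans ?_)
  · by_cases h3 : WBad γ τ c0 m pp π R s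
    · rw [ind_of h3]
      obtain ⟨a, χ, ω, h3 | h3⟩ := h3
      · exact le_trans (ind_of ⟨ω, h3⟩).ge
          (single_le_sum (fun κ _ => ind_nonneg _) (mem_univ (Sum.inl (a, χ))))
      · exact le_trans (ind_of ⟨ω, h3⟩).ge
          (single_le_sum (fun κ _ => ind_nonneg _) (mem_univ (Sum.inr (a, χ))))
    · rw [ind_of_not h3]
      exact sum_nonneg fun κ _ => ind_nonneg _
  · rw [← mul_div_assoc, div_le_iff₀ (by positivity)]
    nlinarith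

end Vale.Agent.P342
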