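import Vale.Agent.P342.Defs

/-! P342: shift graphs have unbounded chromatic number, and the choice of the world bits.
Plan of `shift`: induction on `m` for all finite colour types.  `m = 0`: pigeonhole with `r = card T + 1`.
Step: colour `t : Fin (m+1) → Fin r` by the set of the colours `χ (Fin.snoc t x)`, `t (last) < x` (type `Finset T`);
if `a` is given by the induction hypothesis then `χ a = χ (snoc (init a) (a last))` lies in the set of the tail of `a`,
which gives `x`, and `Fin.snoc a x` works.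
Plan of `world`: for `z : Λ` let `p z` be the minimum of `a (last)` over the strictly monotone `a` with some
`ω ∈ R a`, `bot a ω = z` (any value if there is none); by `h2` every such `a` has `a 0 ≤ p z ≤ a last`.  Put
`lam a z = card {i | a i ≤ p z}` and `s Y a ω = xor (Y (bot a ω)) (decide (Odd (lam a (bot a ω))))`.  For a shift `b`
with a match, `lam (init b) z = lam (tail b) z + 1` (`Fin.sum_univ_succ`, `Fin.sum_univ_castSucc` for the sum of the
indicators over `Fin (m+2)`).  For fixed `a` extend `bot a` restricted to `R a` to a permutation `σ` of `Λ`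
(for example `Finset.exists_equiv_extend_of_card_eq` or `Equiv.extendSubtype`); `Y ↦ fun ω => xor (Y (σ ω)) (..)`
is a bijection of `Λ → Bool` that agrees with `s Y a` on `R a`, so `E_Y ind (B a (s Y a)) ≤ η`.  Union bound
over the at most `r^(m+1)` windows gives a good `Y`. -/

namespace Vale.Agent.P342

open Finset Vale.Agent.P325
open scoped BigOperators

theorem shift (m : ℕ) (T : Type) [Fintype T] : ∃ r : ℕ, ∀ χ : (Fin (m + 1) → Fin r) → T,
    ∃ a : Fin (m + 2) → Fin r, StrictMono a ∧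
      χ (fun i => a i.castSucc) = χ fun i => a i.succ := by
  induction m generalizing T with
  | zero =>
    refine ⟨Fintype.card T + 1, fun χ => ?_⟩
    have key : ∀ x y : Fin (Fintype.card T + 1), x < y → (χ fun _ => x) = (χ fun _ => y) →
        ∃ a : Fin (0 + 2) → Fin (Fintype.card T + 1), StrictMono a ∧
          χ (fun i => a i.castSucc) = χ fun i => a i.succ := by
      intro x y hxy h
      refine ⟨![x, y], Fin.strictMono_iff_lt_succ.2 fun i => ?_, ?_⟩
      · obtain rfl : i = 0 := Subsingleton.elim (α := Fin 1) _ _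
        exact hxy
      · have e1 : (fun i : Fin (0 + 1) => ![x, y] i.castSucc) = fun _ => x := funext fun i => by
          obtain rfl : i = 0 := Subsingleton.elim (α := Fin 1) _ _
          rfl
        have e2 : (fun i : Fin (0 + 1) => ![x, y] i.succ) = fun _ => y := funext fun i => by
          obtain rfl : i = 0 := Subsingleton.elim (α := Fin 1) _ _
          rfl
        exact (congrArg χ e1).trans (h.trans (congrArg χ e2).symm)
    obtain ⟨x, y, hne, h⟩ := Fintype.exists_ne_map_eq_of_card_lt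
      (fun x : Fin (Fintype.card T + 1) => χ fun _ => x) (by simp)
    rcases lt_or_gt_of_ne hne with h1 | h1
    · exact key x y h1 h
    · exact key y x h1 h.symm
  | succ m ih =>
    obtain ⟨r, hr⟩ := ih (Set T)
    refine ⟨r, fun χ => ?_⟩
    obtain ⟨a, ha, h⟩ := hr fun t => {y | ∃ x, t (Fin.last m) < x ∧ χ (Fin.snoc t x) = y}
    have h1 : χ a ∈ {y | ∃ x, a (Fin.last m).castSucc < x ∧
        χ (Fin.snoc (fun i => a i.castSucc) x) = y} :=
      ⟨a (Fin.last (m + 1)), ha (Fin.castSucc_lt_last _), congrArg χ (Fin.snoc_init_self a)⟩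
    rw [h] at h1
    obtain ⟨x, hx, h2⟩ := h1
    refine ⟨Fin.snoc a x, Fin.strictMono_iff_lt_succ.2 fun i => ?_, ?_⟩
    · induction i using Fin.lastCases with
      | last =>
        rw [Fin.succ_last, Fin.snoc_last, Fin.snoc_castSucc]
        exact hx
      | cast j =>
        rw [Fin.succ_castSucc, Fin.snoc_castSucc, Fin.snoc_castSucc]
        exact ha Fin.castSucc_lt_succ
    · simp only [Fin.snoc_castSucc]
      refine h2.symm.trans (congrArg χ (funext fun i => ?_))
      induction i using Fin.lastCases with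
      | last => rw [Fin.succ_last, Fin.snoc_last, Fin.snoc_last]
      | cast j => rw [Fin.succ_castSucc, Fin.snoc_castSucc, Fin.snoc_castSucc]

theorem shift_union {Ω A : Type} [Fintype Ω] [Nonempty Ω] [Fintype A] (P : A → Ω → Prop) (c : A → ℝ)
    (h : ∀ a, 𝔼 ω, ind (P a ω) ≤ c a) (hc : ∑ a, c a < 1) : ∃ ω, ∀ a, ¬ P a ω := by
  have h1 : 𝔼 ω, ∑ a, ind (P a ω) < 1 := by
    rw [expect_sum_comm]
    exact (sum_le_sum fun a _ => h a).trans_lt hc
  obtain ⟨ω, -, h2⟩ := exists_lt_of_expect_lt univ_nonempty h1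
  refine ⟨ω, fun a ha => ?_⟩
  have h3 := single_le_sum (f := fun a => ind (P a ω)) (fun a _ => ind_nonneg _) (mem_univ a)
  rw [ind_of ha] at h3
  linarith

theorem world {Λ : Type} [Fintype Λ] [DecidableEq Λ] {r m : ℕ} {η : ℝ}
    (R : (Fin (m + 1) → Fin r) → Finset Λ) (bot : (Fin (m + 1) → Fin r) → Λ → Λ)
    (B : (Fin (m + 1) → Fin r) → (Λ → Bool) → Prop)
    (hB : ∀ a s s', (∀ x ∈ R a, s x = s' x) → B a s → B a s')
    (hη : ∀ a, 𝔼 s, ind (B a s) ≤ η) (hr : (r : ℝ) ^ (m + 1) * η < 1)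
    (h1 : ∀ a, StrictMono a → Set.InjOn (bot a) (R a))
    (h2 : ∀ a a', StrictMono a → StrictMono a' → a (Fin.last m) < a' 0 →
      ∀ ω ∈ R a, ∀ ω' ∈ R a', bot a ω ≠ bot a' ω') :
    ∃ s : (Fin (m + 1) → Fin r) → Λ → Bool, (∀ a, StrictMono a → ¬ B a (s a)) ∧
      ∀ b : Fin (m + 2) → Fin r, StrictMono b →
        ∀ ω ∈ R (fun i => b i.castSucc), ∀ ω' ∈ R (fun i => b i.succ),
          bot (fun i => b i.castSucc) ω = bot (fun i => b i.succ) ω' →
            s (fun i => b i.castSucc) ω ≠ s (fun i => b i.succ) ω' := by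
  have hp : ∀ z : Λ, ∃ p : ℕ, ∀ a, StrictMono a → ∀ ω ∈ R a, bot a ω = z →
      (a 0 : ℕ) ≤ p ∧ p ≤ a (Fin.last m) := by
    intro z
    refine ⟨sInf {n : ℕ | ∃ a, StrictMono a ∧ (∃ ω ∈ R a, bot a ω = z) ∧ (a (Fin.last m) : ℕ) = n},
      fun a ha ω hω hz => ⟨?_, Nat.sInf_le ⟨a, ha, ⟨ω, hω, hz⟩, rfl⟩⟩⟩
    obtain ⟨a', ha', ⟨ω', hω', hz'⟩, e⟩ := Nat.sInf_mem (s := {n : ℕ | ∃ a, StrictMono a ∧
      (∃ ω ∈ R a, bot a ω = z) ∧ (a (Fin.last m) : ℕ) = n}) ⟨_, a, ha, ⟨ω, hω, hz⟩, rfl⟩
    rw [← e]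
    exact not_lt.1 fun h => h2 a' a ha' ha h ω' hω' ω hω (hz'.trans hz.symm)
  choose p hp using hp
  let lam : (Fin (m + 1) → Fin r) → Λ → ℕ := fun a z => ∑ i, if (a i : ℕ) ≤ p z then 1 else 0
  let s : (Λ → Bool) → (Fin (m + 1) → Fin r) → Λ → Bool := fun Y a ω =>
    xor (Y (bot a ω)) (decide (Odd (lam a (bot a ω))))
  obtain ⟨Y, hY⟩ := shift_union (fun a Y => StrictMono a ∧ B a (s Y a)) (fun _ => η) (fun a => by
    by_cases ha : StrictMono a
    · obtain ⟨σ, hσ⟩ := exists_equiv_extend_of_card_eq (t := univ) card_univ.symm (subset_univ _)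
        (h1 a ha)
      refine le_trans (le_of_eq ?_) (hη a)
      refine Fintype.expect_bijective
        (fun Y ω => xor (Y (σ ω)) (decide (Odd (lam a (bot a ω))))) ?_ _ _ fun Y => ind_congr ?_
      · refine Finite.injective_iff_bijective.1 fun Y Y' h => funext fun z => ?_
        have h3 := congrFun h (σ.symm ⟨z, mem_univ z⟩)
        simpa using h3
      · have h3 : ∀ x ∈ R a, s Y a x = xor (Y (σ x)) (decide (Odd (lam a (bot a x)))) :=
          fun x hx => by rw [hσ x hx]
        exact ⟨fun h => hB a _ _ h3 h.2, fun h => ⟨ha, hB a _ _ (fun x hx => (h3 x hx).symm) h⟩⟩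
    · exact (expect_le_expect fun Y _ => (ind_of_not fun h => ha h.1).le).trans
        ((expect_const_zero _).le.trans ((expect_nonneg fun _ _ => ind_nonneg _).trans (hη a))))
    (by simpa using hr)
  refine ⟨s Y, fun a ha h => hY a ⟨ha, h⟩, fun b hb ω hω ω' hω' h => ?_⟩
  obtain ⟨h3, h4⟩ := hp _ (fun i => b i.castSucc) (hb.comp Fin.strictMono_castSucc) ω hω rfl
  have h5 : lam (fun i => b i.castSucc) (bot (fun i => b i.castSucc) ω) =
      lam (fun i => b i.succ) (bot (fun i => b i.castSucc) ω) + 1 := by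
    have e1 := Fin.sum_univ_succ fun i : Fin (m + 2) =>
      if (b i : ℕ) ≤ p (bot (fun i => b i.castSucc) ω) then 1 else 0
    have h6 : (b (Fin.last m).castSucc : ℕ) < b (Fin.last (m + 1)) := hb (Fin.castSucc_lt_last _)
    rw [Fin.sum_univ_castSucc, if_neg (not_le.2 (lt_of_le_of_lt h4 h6)), if_pos (by exact h3),
      add_zero] at e1
    exact e1.trans (add_comm _ _)
  simp only [s]
  rw [← h, h5]
  simp [Nat.odd_add_one, -Nat.not_odd_iff_even]

end Vale.Agent.P342
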