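import Vale.Agent.P342.Pair
import Vale.Agent.P342.Reg
import Vale.Agent.P342.Shift
import Vale.Agent.P342.Prob
import Vale.Agent.P342.Red

/-! P342: assembly. -/

namespace Vale.Agent.P342

open Finset Vale.Agent.P325 Vale.Agent.Lib.H23
open scoped BigOperators

section

variable {r n m c : ℕ} {Sg E : Type}

/-- the layers of a window, indexed by natural numbers -/
def wa (a : Fin (m + 1) → Fin r) (i : ℕ) : ℕ := a ⟨min i m, by omega⟩

def PP (ii : Fin r → Fin n) (ρ : Fin r × Fin n → Sg → Sg) (a : Fin (m + 1) → Fin r) (j : ℕ) :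
    Lam r n Sg → Lam r n Sg := prj ii ρ (a 0) (wa a (j - 1))

def PI (ii : Fin r → Fin n) (ρ : Fin r × Fin n → Sg → Sg) (a : Fin (m + 1) → Fin r) :
    Lam r n Sg → Lam r n Sg := prj ii ρ (wa a (m - 1)) (wa a m)

theorem wa_le {a : Fin (m + 1) → Fin r} (ha : StrictMono a) (i : ℕ) :
    wa a i ≤ a (Fin.last m) := ha.monotone (Fin.le_last _)

theorem le_wa {a : Fin (m + 1) → Fin r} (ha : StrictMono a) (i : ℕ) :
    (a 0 : ℕ) ≤ wa a i := ha.monotone (Fin.zero_le _)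

theorem wa_mono {a : Fin (m + 1) → Fin r} (ha : StrictMono a) {i j : ℕ} (h : i ≤ j) :
    wa a i ≤ wa a j := ha.monotone (show min i m ≤ min j m by omega)

theorem prj_ii (ii : Fin r → Fin n) (ρ : Fin r × Fin n → Sg → Sg) {j j' : ℕ} {t : Fin r}
    (i : Fin n) (h : j' < t) : prj (Function.update ii t i) ρ j j' = prj ii ρ j j' := by
  funext α x
  unfold prj
  by_cases hx : x.1 = t
  · rw [if_neg (by omega), if_neg (by omega)]
  · rw [Function.update_of_ne hx]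

theorem nam_ii (ii : Fin r → Fin n) (u v : Fin r × Fin n → ℕ) {j : ℕ} {t : Fin r}
    (i : Fin n) (h : j < t) : nam (Function.update ii t i) u v j = nam ii u v j := by
  funext x
  unfold nam
  by_cases hx : x.1 = t
  · rw [if_neg (by omega), if_neg (by omega)]
  · rw [Function.update_of_ne hx]

theorem prj_e (ii : Fin r → Fin n) (π : E → Sg → Sg) (e : Fin r × Fin n → E) {j j' : ℕ}
    {t : Fin r} (h : j' < t ∨ (t : ℕ) ≤ j) (ε ε' : E) :
    prj ii (fun x => π (Function.update e (t, ii t) ε x)) j j' =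
      prj ii (fun x => π (Function.update e (t, ii t) ε' x)) j j' := by
  funext α x
  unfold prj
  by_cases hx : x = (t, ii t)
  · subst hx
    rw [if_neg (by simp only; omega), if_neg (by simp only; omega)]
  · simp only [Function.update_of_ne hx]

theorem nam_u (ii : Fin r → Fin n) (u v : E → ℕ) (e : Fin r × Fin n → E) {j : ℕ} {t : Fin r}
    (h : j < t) {ε ε' : E} (hu : u ε = u ε') :
    nam ii (fun x => u (Function.update e (t, ii t) ε x))
        (fun x => v (Function.update e (t, ii t) ε x)) j =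
      nam ii (fun x => u (Function.update e (t, ii t) ε' x))
        (fun x => v (Function.update e (t, ii t) ε' x)) j := by
  funext x
  unfold nam
  by_cases hx : x = (t, ii t)
  · subst hx
    rw [if_neg (by simp only; omega), if_neg (by simp only; omega)]
    simp [hu]
  · simp only [Function.update_of_ne hx]

theorem nam_v (ii : Fin r → Fin n) (u v : E → ℕ) (e : Fin r × Fin n → E) {j : ℕ} {t : Fin r}
    (h : (t : ℕ) ≤ j) {ε ε' : E} (hv : v ε = v ε') :
    nam ii (fun x => u (Function.update e (t, ii t) ε x))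
        (fun x => v (Function.update e (t, ii t) ε x)) j =
      nam ii (fun x => u (Function.update e (t, ii t) ε' x))
        (fun x => v (Function.update e (t, ii t) ε' x)) j := by
  funext x
  unfold nam
  by_cases hx : x = (t, ii t)
  · subst hx
    rw [if_pos ⟨h, rfl⟩, if_pos ⟨h, rfl⟩]
    simp [hv]
  · simp only [Function.update_of_ne hx]

theorem wa_shift (b : Fin (m + 2) → Fin r) {j : ℕ} (h1 : 1 ≤ j) (h2 : j ≤ m) :
    wa (fun i : Fin (m + 1) => b i.succ) (j - 1) = wa (fun i : Fin (m + 1) => b i.castSucc) j :=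
  congrArg (fun i => (b i : ℕ)) (Fin.ext (show min (j - 1) m + 1 = min j m by omega))

theorem wa_last (a : Fin (m + 1) → Fin r) : wa a m = a (Fin.last m) :=
  congrArg (fun i => (a i : ℕ)) (Fin.ext (show min m m = m by omega))

theorem chain [Fintype Sg] [DecidableEq Sg] {γ κ η : ℝ} (hκ : 0 ≤ κ) (h0 : 0 ≤ γ) (h1 : γ ≤ 1)
    (hsm : 8 * κ + 2 * γ < 1 / (c : ℝ) ^ 4) (hm : 2 * c < qq m) (hm1 : 1 ≤ m)
    (hr : ∀ χ : (Fin (m + 1) → Fin r) → Fin (c + 1) → Fin c, ∃ a : Fin (m + 2) → Fin r,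
      StrictMono a ∧ χ (fun i => a i.castSucc) = χ fun i => a i.succ)
    (hη : (r : ℝ) ^ (m + 1) * η < 1) (ii : Fin r → Fin n) (ρ : Fin r × Fin n → Sg → Sg)
    (C0 : Fin r → (Lam r n Sg → Col) → Fin c)
    (hC : ∀ (j j' : Fin r) (x y : Lam r n Sg → Col), j < j' → (∀ α, x α ≠ y (prj ii ρ j j' α)) →
      C0 j x ≠ C0 j' y)
    (R : (Fin (m + 1) → Fin r) → Finset (Lam r n Sg))
    (hR : ∀ a, 𝔼 s, ind (WBad γ (κ ^ 4) (C0 (a 0)) m (PP ii ρ a) (PI ii ρ a) (R a) s) ≤ η)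
    (e1 : ∀ a : Fin (m + 1) → Fin r, StrictMono a → Set.InjOn (prj ii ρ (a (Fin.last m)) r) (R a))
    (e2 : ∀ a a' : Fin (m + 1) → Fin r, StrictMono a → StrictMono a' → a (Fin.last m) < a' 0 →
      ∀ ω ∈ R a, ∀ ω' ∈ R a', prj ii ρ (a (Fin.last m)) r ω ≠ prj ii ρ (a' (Fin.last m)) r ω') :
    False := by
  obtain ⟨s, hs1, hs2⟩ := world R (fun a => prj ii ρ (a (Fin.last m)) r)
    (fun a s => WBad γ (κ ^ 4) (C0 (a 0)) m (PP ii ρ a) (PI ii ρ a) (R a) s)
    (fun a s s' hs h => h.congr hs) hR hη e1 e2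
  choose χ hχ using fun (a : Fin (m + 1) → Fin r) (G : Fin (c + 1)) =>
    exists_dens (m := m) (C0 (a 0)) (PP ii ρ a) (top m G) (R a) (s a)
  obtain ⟨b, hb, hχb⟩ := hr χ
  obtain ⟨G, G', hne, hG⟩ := Fintype.exists_ne_map_eq_of_card_lt (χ fun i => b i.succ) (by simp)
  have hb1 : StrictMono fun i : Fin (m + 1) => b i.castSucc := hb.comp Fin.strictMono_castSucc
  have hb2 : StrictMono fun i : Fin (m + 1) => b i.succ := hb.comp Fin.strictMono_succ
  have hlt : b (Fin.castSucc 0) < b (Fin.succ 0) := hb Fin.castSucc_lt_succ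
  have hd := hχ (fun i => b i.castSucc) G
  have hd' := hχ (fun i => b i.succ) G'
  rw [hχb, hG] at hd
  refine pair hκ h0 h1 hsm hm hm1
    (ρ := prj ii ρ (b (Fin.castSucc 0)) (b (Fin.succ 0))) (fun j α h1 h2 => ?_) (fun α => ?_)
    (fun x y hxy => hC _ _ x y hlt hxy) (fun ω hω hω' => hs2 b hb ω hω _ hω' ?_)
    (hs1 _ hb1) (hs1 _ hb2) hne hd hd'
  · unfold PP
    rw [prj_comp ii ρ hlt.le (le_wa hb2 _), wa_shift b h1 h2, Nat.add_sub_cancel]
  · unfold PI PP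
    rw [prj_comp ii ρ (le_wa hb2 _) (wa_mono hb2 (by omega)), Nat.add_sub_cancel]
  · unfold PI
    rw [wa_shift b hm1 le_rfl, wa_last, wa_last,
      prj_comp ii ρ (hb.monotone Fin.castSucc_lt_succ.le) (b _).2.le]

end

theorem sound {c : ℕ} (hc : 0 < c) : ∃ (r n : ℕ) (δ : ℝ), 0 < δ ∧
    ∀ (Sg E : Type) [Fintype Sg] [DecidableEq Sg] [Nonempty Sg] [Fintype E] [Nonempty E]
      (u v : E → ℕ) (π : E → Sg → Sg),
      (∀ f g : ℕ → Sg, 𝔼 ε, ind (π ε (f (u ε)) = g (v ε)) ≤ δ) →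
      ∀ C : Fin r → (Fin r × Fin n → ℕ) → (Lam r n Sg → Col) → Fin c,
      (∀ (ii : Fin r → Fin n) (e : Fin r × Fin n → E) (j j' : Fin r) (x y : Lam r n Sg → Col),
        j < j' → (∀ α, x α ≠ y (prj ii (fun z => π (e z)) j j' α)) →
        C j (nam ii (fun z => u (e z)) (fun z => v (e z)) j) x ≠
          C j' (nam ii (fun z => u (e z)) (fun z => v (e z)) j') y) → False := by
  obtain ⟨m, hm⟩ : ∃ m, m = 2 * c := ⟨_, rfl⟩
  obtain ⟨r, hr⟩ := shift m (Fin (c + 1) → Fin c)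
  have hc1 : (1 : ℝ) ≤ c := by exact_mod_cast hc
  have hc4 : (1 : ℝ) ≤ (c : ℝ) ^ 4 := one_le_pow₀ hc1
  set κ : ℝ := 1 / (20 * (c : ℝ) ^ 4) with hκ
  set γ : ℝ := 1 / (5 * (c : ℝ) ^ 4) with hγ
  have κ0 : 0 < κ := by positivity
  have γ0 : 0 < γ := by positivity
  have γ1 : γ ≤ 1 := by
    rw [hγ, div_le_one (by positivity)]
    linarith
  have hsm : 8 * κ + 2 * γ < 1 / (c : ℝ) ^ 4 := by
    have : 8 * κ + 2 * γ = 4 / 5 * (1 / (c : ℝ) ^ 4) := by
      rw [hκ, hγ]; field_simp; ring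
    have h2 : 0 < 1 / (c : ℝ) ^ 4 := by positivity
    linarith
  obtain ⟨L, hL⟩ := reg c m (γ := γ) (τ := κ ^ 4) (η := 1 / ((r : ℝ) ^ (m + 1) + 1)) γ0 γ1
    (by positivity) (by positivity)
  obtain ⟨n, hn⟩ : ∃ n, n = 2 * (r ^ (m + 2) * L ^ 2) + 1 := ⟨_, rfl⟩
  refine ⟨r, n, 1 / (2 * ((r : ℝ) ^ (2 * (m + 1)) * L ^ 2) + 1),
    by positivity, ?_⟩
  intro Sg E _ _ _ _ _ u v π hδ C hC
  choose sel hsel1 hsel2 using hL (Lam r n Sg)
  let R : (Fin r → Fin n) → (Fin r × Fin n → E) → (Fin (m + 1) → Fin r) → Finset (Lam r n Sg) :=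
    fun ii e a => sel (C (a 0) (nam ii (fun z => u (e z)) (fun z => v (e z)) (a 0)))
      (PP ii (fun z => π (e z)) a) (PI ii (fun z => π (e z)) a)
  refine (good_chain (r := r) (n := n) (m := m) (L := L) (by omega) u v π hδ R
    (fun _ _ _ => hsel1 _ _ _) (fun ii e a t i ha ht => ?_) (fun ii e a t ε ε' ha ht hu => ?_)
    (fun ii e a t ε ε' ha ht hv => ?_) ?_).elim ?_
  · have h0 : (a 0 : ℕ) < t := lt_of_le_of_lt (ha.monotone (Fin.zero_le _)) ht
    have h3 : ∀ i, wa a i < t := fun i => lt_of_le_of_lt (wa_le ha i) ht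
    simp only [R]
    congr 1
    · rw [nam_ii ii _ _ i h0]
    · funext j
      exact prj_ii ii _ i (h3 _)
    · exact prj_ii ii _ i (h3 _)
  · have h0 : (a 0 : ℕ) < t := lt_of_le_of_lt (ha.monotone (Fin.zero_le _)) ht
    have h3 : ∀ i, wa a i < t := fun i => lt_of_le_of_lt (wa_le ha i) ht
    simp only [R]
    congr 1
    · rw [nam_u ii u v e h0 hu]
    · funext j
      exact prj_e ii π e (Or.inl (h3 _)) ε ε'
    · exact prj_e ii π e (Or.inl (h3 _)) ε ε'
  · have h0 : (t : ℕ) ≤ a 0 := ht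
    simp only [R]
    congr 1
    · rw [nam_v ii u v e h0 hv]
    · funext j
      exact prj_e ii π e (Or.inr h0) ε ε'
    · exact prj_e ii π e (Or.inr (h0.trans (le_wa ha _))) ε ε'
  · have a1 : (r : ℝ) ^ (m + 2) * L ^ 2 / n < 1 / 2 := by
      rw [div_lt_iff₀ (by rw [hn]; positivity), hn]
      push_cast
      linarith
    have a2 : (r : ℝ) ^ (2 * (m + 1)) * L ^ 2 *
        (1 / (2 * ((r : ℝ) ^ (2 * (m + 1)) * L ^ 2) + 1)) < 1 / 2 := by
      rw [mul_one_div, div_lt_iff₀ (by positivity)]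
      linarith
    linarith
  rintro ii ⟨e, h1, h2⟩
  exact chain κ0.le γ0.le γ1 hsm (by unfold qq; omega) (by omega) hr
    (η := 1 / ((r : ℝ) ^ (m + 1) + 1))
    (by rw [mul_one_div, div_lt_one (by positivity)]; linarith) ii (fun z => π (e z))
    (fun j => C j (nam ii (fun z => u (e z)) (fun z => v (e z)) j)) (hC ii e) (R ii e)
    (fun a => hsel2 _ _ _) h1 h2

theorem hard_pos (h : LCStmt) {c : ℕ} (hc : 0 < c) : ∃ f : CNF → EL, PT f ∧
    ∀ φ, (∀ e ∈ f φ, e.1 ≠ e.2) ∧ (Sat φ → Colr (f φ) Col) ∧ (¬ Sat φ → ¬ Colr (f φ) (Fin c)) := by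
  obtain ⟨r, n, δ, hδ, hs⟩ := sound hc
  obtain ⟨Sg, _, _, _, f, pf, hf⟩ := lc_same h hδ
  obtain ⟨g, pg, hg⟩ := red_pt (Sg := Sg) r n
  refine ⟨fun φ => g (f φ), pg.comp pf, fun φ => ⟨fun e he => red_loop ((hg _ _).1 he),
    fun hφ => ?_, fun hφ => ?_⟩⟩
  · obtain ⟨a, b, hab⟩ := (hf φ).2.1 hφ
    obtain ⟨col, hcol⟩ := red_complete (r := r) (n := n) hab
    exact ⟨col, fun e he => hcol e ((hg _ _).1 he)⟩
  · rintro ⟨col, hcol⟩
    have : Nonempty (Fin (f φ).length) := ⟨⟨0, List.length_pos_iff.2 (hf φ).1⟩⟩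
    refine hs Sg (Fin (f φ).length) (fun ε => ((f φ).get ε).1 0) (fun ε => ((f φ).get ε).1 1)
      (fun ε => ((f φ).get ε).2.val) (fun a b => ?_) (fun j q x => col (vn j q x))
      fun ii e j j' x y hj hxy => ?_
    · have h1 := (hf φ).2.2 hφ a b
      rw [avg_eq_expect] at h1
      exact h1
    · exact hcol (_, _) ((hg _ _).2 ⟨fun z => (f φ).get (e z), fun z => List.get_mem _ _, ii, j, j',
        x, y, hj, hxy, rfl⟩)

theorem hard (h : LCStmt) : HardStmt := by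
  intro c
  rcases Nat.eq_zero_or_pos c with rfl | hc
  · obtain ⟨f, pf, hf⟩ := hard_pos h one_pos
    exact ⟨f, pf, fun φ => ⟨(hf φ).1, (hf φ).2.1, fun _ ⟨col, _⟩ => (col 0).elim0⟩⟩
  · exact hard_pos h hc

end Vale.Agent.P342
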