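import Vale.Agent.P342.Ops

/-! P342: closure properties of nice couplings.
Plan.  `holder`: if `E h^4 ≤ b^4`, `E w^4 ≤ a^4` (all nonnegative) then `E w^3 h ≤ a^3 b` (for `a, b > 0`
use `w^3 h ≤ 3/4 w^4 b/a + 1/4 h^4 a^3/b^3`; if `a = 0` then `w = 0`, if `b = 0` then `h = 0`).
`nice_one`: `E v ≤ b` by Jensen.  `nice_k3`: `T v (x) = E_y k x y v y` is half the sum of the two other
values, `3 ((q+r)^4 + (p+r)^4 + (p+q)^4) ≤ 16 (p^2+q^2+r^2)^2` (put `m = (p+q+r)/3`, deviations `d_i` with sum zero);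
for mean zero `v` one has `T v x = - v (x+e) / 2`.
`nice_adapt`, `cor`: `u = ubar + utilde` with `ubar d = E_x u (d,x)`; the cross terms vanish by `row`, `col`;
`E u^2 = E ubar^2 + E utilde^2`.  `hyp1`: apply the inner inequality with `a d = sqrt (sqrt (E_x w(d,x)^4))`,
`b d' = sqrt (E_y v(d',y)^2)`, then the outer one to these functions.  `hyp2` by `Nice.swap`.
`nice_prodS`: `Finset.induction_on S`, the same argument as `nice_adapt` with `kernel_split` in the place of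
the product decomposition (or transport `nice_adapt` along `Equiv.piSplitAt`). -/

namespace Vale.Agent.P342

open Finset Vale.Agent.P325
open scoped BigOperators

variable {ι U V D D' : Type} [Fintype ι] [DecidableEq ι] [Fintype U] [Nonempty U] [Fintype V]
  [Nonempty V] [Fintype D] [Nonempty D] [Fintype D'] [Nonempty D']

theorem nice_holder {w h : U → ℝ} {a b : ℝ} (ha : 0 ≤ a) (hb : 0 ≤ b) (h1 : 𝔼 x, w x ^ 4 ≤ a ^ 4)
    (h2 : 𝔼 x, h x ^ 4 ≤ b ^ 4) : 𝔼 x, w x ^ 3 * h x ≤ a ^ 3 * b := by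
  have c1 := expect_mul_sq_le_sq_mul_sq univ (fun x => w x ^ 2) fun x => w x * h x
  have c2 := expect_mul_sq_le_sq_mul_sq univ (fun x => w x ^ 2) fun x => h x ^ 2
  have e1 : 𝔼 x, w x ^ 2 * (w x * h x) = 𝔼 x, w x ^ 3 * h x := ops_congr fun x => by ring
  have e2 : 𝔼 x, (w x * h x) ^ 2 = 𝔼 x, w x ^ 2 * h x ^ 2 := ops_congr fun x => by ring
  have e3 : ∀ f : U → ℝ, 𝔼 x, (f x ^ 2) ^ 2 = 𝔼 x, f x ^ 4 := fun f => ops_congr fun x => by ring
  have c3 : ∀ f : U → ℝ, 0 ≤ 𝔼 x, f x ^ 4 := fun f => expect_nonneg fun x _ => by positivity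
  rw [e1, e2, e3] at c1
  rw [e3, e3] at c2
  have c4 := c3 w
  have c5 := c3 h
  clear e1 e2 e3 c3
  generalize 𝔼 x, w x ^ 3 * h x = X at *
  generalize 𝔼 x, w x ^ 2 * h x ^ 2 = Y at *
  generalize 𝔼 x, w x ^ 4 = W at *
  generalize 𝔼 x, h x ^ 4 = H at *
  refine le_of_pow_le_pow_left₀ (n := 4) (by norm_num) (by positivity) ?_
  calc _ = (X ^ 2) ^ 2 := by ring
    _ ≤ (W * Y) ^ 2 := pow_le_pow_left₀ (sq_nonneg _) c1 2
    _ ≤ W ^ 2 * (W * H) := by rw [mul_pow]; gcongr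
    _ ≤ (a ^ 4) ^ 2 * (a ^ 4 * b ^ 4) := by gcongr
    _ = _ := by ring

/-- one direction of hypercontractivity -/
def NHyp (k : U → V → ℝ) : Prop :=
  ∀ (w : U → ℝ) (v : V → ℝ) (a b : ℝ), (∀ x, 0 ≤ w x) → (∀ y, 0 ≤ v y) → 0 ≤ a → 0 ≤ b →
    𝔼 x, w x ^ 4 ≤ a ^ 4 → 𝔼 y, v y ^ 2 ≤ b ^ 2 → 𝔼 x, 𝔼 y, k x y * (w x ^ 3 * v y) ≤ a ^ 3 * b

theorem nice_hyp {k : U → V → ℝ}
    (h : ∀ v : V → ℝ, 𝔼 x, (𝔼 y, k x y * v y) ^ 4 ≤ (𝔼 y, v y ^ 2) ^ 2) : NHyp k := by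
  intro w v a b _ _ ha hb h1 h2
  refine le_of_eq_of_le (ops_congr fun x => ?_) (nice_holder ha hb h1 ((h v).trans ?_))
  · rw [mul_expect]
    exact ops_congr fun y => by ring
  · exact (pow_le_pow_left₀ (expect_nonneg fun y _ => sq_nonneg _) h2 2).trans_eq (by ring)

theorem nice_mk {k : U → V → ℝ} (h0 : ∀ x y, 0 ≤ k x y) (h1 : ∀ x, 𝔼 y, k x y = 1)
    (h2 : ∀ y, 𝔼 x, k x y = 1)
    (h3 : ∀ (u : U → ℝ) (v : V → ℝ), 𝔼 x, u x = 0 → 𝔼 y, v y = 0 →
      |𝔼 x, 𝔼 y, k x y * (u x * v y)| ≤ ((𝔼 x, u x ^ 2) + 𝔼 y, v y ^ 2) / 4)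
    (h4 : NHyp k) (h5 : NHyp fun y x => k x y) : Nice k :=
  ⟨h0, h1, h2, h3, h4, fun w v a b a1 a2 a3 a4 a5 a6 => by
    rw [expect_comm]
    simpa only [mul_comm (v _)] using h5 w v a b a1 a2 a3 a4 a5 a6⟩

theorem Nice.swap {k : U → V → ℝ} (h : Nice k) : Nice fun y x => k x y := by
  refine nice_mk (fun y x => h.nonneg x y) h.col h.row (fun u v hu hv => ?_)
    (fun w v a b a1 a2 a3 a4 a5 a6 => ?_) h.hyp1
  · rw [expect_comm, add_comm]
    simpa only [mul_comm (u _)] using h.cor v u hv hu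
  · rw [expect_comm]
    simpa only [mul_comm (v _)] using h.hyp2 w v a b a1 a2 a3 a4 a5 a6

theorem nice_hyp_one : NHyp fun (_ : U) (_ : V) => (1 : ℝ) :=
  nice_hyp fun v => by
    simp only [one_mul, Fintype.expect_const]
    exact le_of_eq_of_le (by ring) (pow_le_pow_left₀ (sq_nonneg _) (ops_jensen v) 2)

theorem nice_one : Nice fun (_ : U) (_ : V) => (1 : ℝ) := by
  refine nice_mk (fun _ _ => zero_le_one) (fun _ => Fintype.expect_const _)
    (fun _ => Fintype.expect_const _) (fun u v hu hv => ?_) nice_hyp_one nice_hyp_one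
  simp only [one_mul, ← mul_expect, hv, mul_zero, expect_const_zero, abs_zero]
  exact div_nonneg (add_nonneg (expect_nonneg fun _ _ => sq_nonneg _)
    (expect_nonneg fun _ _ => sq_nonneg _)) (by norm_num)

theorem nice_three (f : Fin 3 → ℝ) : 𝔼 x, f x = (f 0 + f 1 + f 2) / 3 := by
  rw [Fintype.expect_eq_sum_div_card, Fin.sum_univ_three, Fintype.card_fin, Nat.cast_ofNat]

theorem nice_k3_swap (e b b' : Fin 3) : k3 e b b' = k3 (-e) b' b := by
  simp only [k3, ← sub_eq_add_neg, eq_sub_iff_add_eq, eq_comm]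

theorem nice_T (e x : Fin 3) (v : Fin 3 → ℝ) :
    𝔼 y, k3 e x y * v y = (3 * (𝔼 y, v y) - v (x + e)) / 2 := by
  simp only [k3]
  generalize x + e = z
  rw [nice_three, nice_three]
  fin_cases z <;> simp <;> ring

theorem nice_shift (e : Fin 3) (f : Fin 3 → ℝ) : 𝔼 x, f (x + e) = 𝔼 x, f x :=
  Fintype.expect_equiv (Equiv.addRight e) _ _ fun _ => rfl

theorem nice_hyp_k3 (e : Fin 3) : NHyp (k3 e) :=
  nice_hyp fun v => by
    simp only [nice_T]
    rw [nice_shift e fun x => ((3 * (𝔼 y, v y) - v x) / 2) ^ 4]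
    simp only [nice_three]
    generalize v 0 = p
    generalize v 1 = q
    generalize v 2 = r
    nlinarith [sq_nonneg ((p + q + r) * (2 * p - q - r) + (2 * p - q - r) ^ 2 / 2),
      sq_nonneg ((p + q + r) * (2 * q - p - r) + (2 * q - p - r) ^ 2 / 2),
      sq_nonneg ((p + q + r) * (2 * r - q - p) + (2 * r - q - p) ^ 2 / 2),
      sq_nonneg (p ^ 2 + q ^ 2 + r ^ 2 - p * q - q * r - r * p)]

theorem nice_k3 (e : Fin 3) : Nice (k3 e) := by
  have row : ∀ e x : Fin 3, 𝔼 y, k3 e x y = 1 := fun e x => by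
    have := nice_T e x fun _ => 1
    simp only [mul_one, Fintype.expect_const] at this
    rw [this]
    norm_num
  refine nice_mk (fun x y => ?_) (row e) (fun y => ?_) (fun u v hu hv => ?_) (nice_hyp_k3 e) ?_
  · rw [k3]
    split_ifs <;> norm_num
  · simp only [nice_k3_swap e, row]
  · simp only [mul_left_comm (k3 e _ _), ← mul_expect, nice_T, hv]
    rw [← nice_shift e fun x => v x ^ 2, ← expect_add_distrib, expect_div]
    refine (abs_expect_le _ _).trans (ops_le fun x => abs_le.2 ⟨?_, ?_⟩)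
    · nlinarith [sq_nonneg (u x - v (x + e))]
    · nlinarith [sq_nonneg (u x + v (x + e))]
  · simp only [nice_k3_swap e]
    exact nice_hyp_k3 (-e)

theorem Nice.margL {k : U → V → ℝ} (h : Nice k) (f : U → ℝ) :
    𝔼 x, 𝔼 y, k x y * f x = 𝔼 x, f x := by
  simp only [← expect_mul, h.row, one_mul]

theorem Nice.margR {k : U → V → ℝ} (h : Nice k) (g : V → ℝ) :
    𝔼 x, 𝔼 y, k x y * g y = 𝔼 y, g y := by
  rw [expect_comm]
  simp only [← expect_mul, h.col, one_mul]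

theorem nice_var (u : U → ℝ) : 𝔼 x, (u x - 𝔼 x, u x) ^ 2 = (𝔼 x, u x ^ 2) - (𝔼 x, u x) ^ 2 := by
  simp only [sub_sq, expect_add_distrib, expect_sub_distrib, ← expect_mul, ← mul_expect,
    Fintype.expect_const]
  ring

theorem Nice.cor' {k : U → V → ℝ} (h : Nice k) (u : U → ℝ) (v : V → ℝ) :
    |(𝔼 x, 𝔼 y, k x y * (u x * v y)) - (𝔼 x, u x) * 𝔼 y, v y| ≤
      ((𝔼 x, u x ^ 2) - (𝔼 x, u x) ^ 2 + ((𝔼 y, v y ^ 2) - (𝔼 y, v y) ^ 2)) / 4 := by
  rw [← nice_var, ← nice_var]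
  refine le_of_eq_of_le ?_ (h.cor _ _ (by simp [expect_sub_distrib]) (by simp [expect_sub_distrib]))
  generalize ha : 𝔼 x, u x = a
  generalize hb : 𝔼 y, v y = b
  have e : ∀ x y, k x y * ((u x - a) * (v y - b)) =
      k x y * (u x * v y) - k x y * (b * u x) - k x y * (a * (v y - b)) := fun x y => by ring
  simp only [e, expect_sub_distrib]
  rw [h.margL, h.margR, ← mul_expect, ← mul_expect, expect_sub_distrib, Fintype.expect_const, ha, hb]
  congr 1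
  ring

theorem nice_four (k0 : D → D' → ℝ) (k : D → D' → U → V → ℝ) (Φ : D × U → D' × V → ℝ) :
    𝔼 p : D × U, 𝔼 q : D' × V, k0 p.1 q.1 * k p.1 q.1 p.2 q.2 * Φ p q =
      𝔼 d, 𝔼 d', k0 d d' * 𝔼 x, 𝔼 y, k d d' x y * Φ (d, x) (d', y) := by
  simp only [ops_prod, mul_expect, mul_assoc]
  exact ops_congr fun d => expect_comm _ _ _

theorem nice_root {t : ℝ} (ht : 0 ≤ t) : √(√t) ^ 4 = t := by
  rw [show 4 = 2 * 2 from rfl, pow_mul, Real.sq_sqrt (Real.sqrt_nonneg _), Real.sq_sqrt ht]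

theorem nice_adapt_hyp {k0 : D → D' → ℝ} {k : D → D' → U → V → ℝ} (h00 : ∀ d d', 0 ≤ k0 d d')
    (h0 : NHyp k0) (h : ∀ d d', NHyp (k d d')) :
    NHyp fun (x : D × U) (y : D' × V) => k0 x.1 y.1 * k x.1 y.1 x.2 y.2 := by
  intro w v a b a1 a2 a3 a4 a5 a6
  have b1 : ∀ d, √(√(𝔼 x, w (d, x) ^ 4)) ^ 4 = 𝔼 x, w (d, x) ^ 4 := fun d =>
    nice_root (expect_nonneg fun x _ => by positivity)
  have b2 : ∀ d', √(𝔼 y, v (d', y) ^ 2) ^ 2 = 𝔼 y, v (d', y) ^ 2 := fun d' =>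
    Real.sq_sqrt (expect_nonneg fun x _ => by positivity)
  rw [nice_four k0 k fun p q => w p ^ 3 * v q]
  refine le_trans (ops_le fun d => ops_le fun d' => mul_le_mul_of_nonneg_left
    (h d d' _ _ _ _ (fun x => a1 _) (fun y => a2 _) (Real.sqrt_nonneg _) (Real.sqrt_nonneg _)
      (b1 d).ge (b2 d').ge) (h00 d d'))
    (h0 _ _ a b (fun d => Real.sqrt_nonneg _) (fun d => Real.sqrt_nonneg _) a3 a4 ?_ ?_)
  · rwa [ops_congr b1, ← ops_prod fun p => w p ^ 4]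
  · rwa [ops_congr b2, ← ops_prod fun p => v p ^ 2]

theorem nice_adapt {k0 : D → D' → ℝ} {k : D → D' → U → V → ℝ} (h0 : Nice k0)
    (h : ∀ d d', Nice (k d d')) :
    Nice fun (x : D × U) (y : D' × V) => k0 x.1 y.1 * k x.1 y.1 x.2 y.2 := by
  refine nice_mk (fun x y => mul_nonneg (h0.nonneg _ _) ((h _ _).nonneg _ _)) (fun x => ?_)
    (fun y => ?_) (fun u v hu hv => ?_) (nice_adapt_hyp h0.nonneg h0.hyp1 fun d d' => (h d d').hyp1)
    (nice_adapt_hyp (k0 := fun d' d => k0 d d') (k := fun d' d y x => k d d' x y) h0.swap.nonneg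
      h0.swap.hyp1 fun d' d => (h d d').swap.hyp1)
  · simp only [ops_prod, ← mul_expect, (h _ _).row, mul_one, h0.row]
  · simp only [ops_prod, ← mul_expect, (h _ _).col, mul_one, h0.col]
  rw [nice_four k0 k fun p q => u p * v q]
  rw [ops_prod] at hu hv
  have c1 := h0.cor _ _ hu hv
  have c2 : |𝔼 d, 𝔼 d', k0 d d' * ((𝔼 x, 𝔼 y, k d d' x y * (u (d, x) * v (d', y))) -
      (𝔼 x, u (d, x)) * 𝔼 y, v (d', y))| ≤ 𝔼 d, 𝔼 d', (
        k0 d d' * (((𝔼 x, u (d, x) ^ 2) - (𝔼 x, u (d, x)) ^ 2) / 4) +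
        k0 d d' * (((𝔼 y, v (d', y) ^ 2) - (𝔼 y, v (d', y)) ^ 2) / 4)) := by
    refine (abs_expect_le _ _).trans (ops_le fun d => (abs_expect_le _ _).trans (ops_le fun d' => ?_))
    rw [abs_mul, abs_of_nonneg (h0.nonneg d d'), ← mul_add, ← add_div]
    exact mul_le_mul_of_nonneg_left ((h d d').cor' (fun x => u (d, x)) fun y => v (d', y))
      (h0.nonneg d d')
  simp only [expect_add_distrib] at c2
  rw [h0.margL, h0.margR] at c2
  simp only [mul_sub, expect_sub_distrib, ← expect_div] at c2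
  rw [ops_prod fun p => u p ^ 2, ops_prod fun p => v p ^ 2]
  rw [abs_le] at *
  constructor <;> linarith [c1.1, c1.2, c2.1, c2.2]

/-- splitting off one coordinate of a product kernel -/
theorem kernel_split (k : ι → U → V → ℝ) {i : ι} {S : Finset ι} (hi : i ∉ S)
    (h : (ι → U) → (ι → V) → ℝ) :
    𝔼 x : ι → U, 𝔼 y : ι → V, (∏ j ∈ insert i S, k j (x j) (y j)) * h x y =
      𝔼 x : ι → U, 𝔼 y : ι → V, (∏ j ∈ S, k j (x j) (y j)) *
        𝔼 a, 𝔼 b, k i a b * h (Function.update x i a) (Function.update y i b) := by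
  rw [expect_update i]
  refine ops_congr fun x => ?_
  simp only [mul_expect]
  rw [expect_comm]
  conv_lhs => rw [expect_update i]
  refine ops_congr fun y => ?_
  rw [expect_comm]
  refine ops_congr fun a => ops_congr fun b => ?_
  rw [prod_insert hi, Function.update_self, Function.update_self, mul_comm (k i a b), mul_assoc]
  congr 1
  refine prod_congr rfl fun j hj => ?_
  have : j ≠ i := fun e => hi (e ▸ hj)
  rw [Function.update_of_ne this, Function.update_of_ne this]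

theorem nice_lift {k : U → V → ℝ} {φ : D → U} {ψ : D' → V} (s1 : φ.Surjective) (s2 : ψ.Surjective)
    (h1 : ∀ f : U → ℝ, 𝔼 x, f x = 𝔼 p, f (φ p)) (h2 : ∀ f : V → ℝ, 𝔼 y, f y = 𝔼 q, f (ψ q))
    (h : Nice fun p q => k (φ p) (ψ q)) : Nice k := by
  refine ⟨s1.forall.2 fun p => s2.forall.2 fun q => h.nonneg p q,
    s1.forall.2 fun p => (h2 _).trans (h.row p), s2.forall.2 fun q => (h1 _).trans (h.col q),
    fun u v hu hv => ?_, fun w v a b a1 a2 a3 a4 a5 a6 => ?_, fun w v a b a1 a2 a3 a4 a5 a6 => ?_⟩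
  · rw [h1, h1 fun x => u x ^ 2, h2 fun y => v y ^ 2, ops_congr fun p => h2 _]
    exact h.cor _ _ ((h1 u).symm.trans hu) ((h2 v).symm.trans hv)
  · rw [h1, ops_congr fun p => h2 _]
    exact h.hyp1 _ _ a b (fun p => a1 _) (fun q => a2 _) a3 a4 ((h1 _).ge.trans a5)
      ((h2 _).ge.trans a6)
  · rw [h1, ops_congr fun p => h2 _]
    exact h.hyp2 _ _ a b (fun p => a1 _) (fun q => a2 _) a3 a4 ((h2 _).ge.trans a5)
      ((h1 _).ge.trans a6)

theorem nice_prodS {k : ι → U → V → ℝ} (h : ∀ i, Nice (k i)) (S : Finset ι) :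
    Nice fun (x : ι → U) (y : ι → V) => ∏ j ∈ S, k j (x j) (y j) := by
  induction S using Finset.induction_on with
  | empty => simpa only [prod_empty] using nice_one
  | insert i S hi ih =>
    refine nice_lift (φ := fun p : (ι → U) × U => Function.update p.1 i p.2)
      (ψ := fun p : (ι → V) × V => Function.update p.1 i p.2)
      (fun x => ⟨(x, x i), by simp⟩) (fun x => ⟨(x, x i), by simp⟩)
      (fun f => by rw [ops_prod, expect_update i]) (fun f => by rw [ops_prod, expect_update i]) ?_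
    convert nice_adapt ih fun _ _ => h i using 3 with p q
    rw [prod_insert hi, Function.update_self, Function.update_self, mul_comm]
    congr 1
    refine prod_congr rfl fun j hj => ?_
    have : j ≠ i := fun e => hi (e ▸ hj)
    rw [Function.update_of_ne this, Function.update_of_ne this]

theorem nice_pi {k0 : D → D' → ℝ} {k : D → D' → ι → U → V → ℝ} (h0 : Nice k0)
    (h : ∀ d d' i, Nice (k d d' i)) :
    Nice fun (x : D × (ι → U)) (y : D' × (ι → V)) =>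
      k0 x.1 y.1 * ∏ i, k x.1 y.1 i (x.2 i) (y.2 i) :=
  nice_adapt (k := fun d d' (x : ι → U) (y : ι → V) => ∏ i, k d d' i (x i) (y i)) h0
    fun d d' => nice_prodS (h d d') univ

/-- the conditional expectation halves the norm of a function of mean zero -/
theorem Nice.contract {k : U → V → ℝ} (h : Nice k) (v : V → ℝ) (hv : 𝔼 y, v y = 0) :
    𝔼 x, (𝔼 y, k x y * v y) ^ 2 ≤ (𝔼 y, v y ^ 2) / 4 := by
  have h1 := (le_abs_self _).trans (h.cor (fun x => 2 * 𝔼 y, k x y * v y) v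
    (by rw [← mul_expect, h.margR, hv, mul_zero]) hv)
  simp only [mul_left_comm (k _ _), ← mul_expect, mul_assoc, ← sq, mul_pow] at h1
  linarith

theorem nice_cube {g : U → ℝ} (hg : ∀ x, |g x| ≤ 1) : ∃ w : U → ℝ, (∀ x, 0 ≤ w x) ∧
    (∀ x, g x ^ 2 = w x ^ 3) ∧ 𝔼 x, w x ^ 4 ≤ 𝔼 x, g x ^ 2 := by
  have h1 : ∀ x, g x ^ 2 = (|g x| ^ (2 / 3 : ℝ)) ^ 3 := fun x => by
    rw [← Real.rpow_natCast _ 3, ← Real.rpow_mul (abs_nonneg _), ← sq_abs, ← Real.rpow_natCast]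
    norm_num
  refine ⟨_, fun x => by positivity, h1, ops_le fun x => ?_⟩
  rw [pow_succ, ← h1]
  exact mul_le_of_le_one_right (sq_nonneg _)
    (Real.rpow_le_one (abs_nonneg _) (hg x) (by norm_num))

theorem nice_err {k : U → V → ℝ} (h : Nice k) (g : U → ℝ) (g' : V → ℝ) (hg : ∀ x, |g x| ≤ 1)
    {α β : ℝ} (h1 : 0 ≤ α) (h2 : 0 ≤ β) (h3 : α ^ 4 = 𝔼 x, g x ^ 2) (h4 : β ^ 4 = 𝔼 y, g' y ^ 2) :
    𝔼 x, 𝔼 y, k x y * (g x ^ 2 * |g' y|) ≤ α ^ 3 * β ^ 2 := by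
  obtain ⟨w, w0, w1, w2⟩ := nice_cube hg
  rw [← h3] at w2
  simp only [w1]
  refine h.hyp1 w _ α _ w0 (fun y => abs_nonneg _) h1 (sq_nonneg _) w2 ?_
  simp only [sq_abs]
  rw [← h4, ← pow_mul]

/-- the error terms of the Bellman argument -/
theorem Nice.err {k : U → V → ℝ} (h : Nice k) (g : U → ℝ) (g' : V → ℝ) (hg : ∀ x, |g x| ≤ 1)
    (hg' : ∀ y, |g' y| ≤ 1) {κ : ℝ} (hκ : 0 ≤ κ)
    (hs : 𝔼 x, g x ^ 2 ≤ κ ^ 4 ∨ 𝔼 y, g' y ^ 2 ≤ κ ^ 4) :
    𝔼 x, 𝔼 y, k x y * (g x ^ 2 * |g' y| + |g x| * g' y ^ 2) ≤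
      2 * κ * ((𝔼 x, g x ^ 2) + 𝔼 y, g' y ^ 2) := by
  have h3 := nice_root (t := 𝔼 x, g x ^ 2) (expect_nonneg fun _ _ => sq_nonneg _)
  have h4 := nice_root (t := 𝔼 y, g' y ^ 2) (expect_nonneg fun _ _ => sq_nonneg _)
  have h1 := Real.sqrt_nonneg √(𝔼 x, g x ^ 2)
  have h2 := Real.sqrt_nonneg √(𝔼 y, g' y ^ 2)
  have c1 := nice_err h g g' hg h1 h2 h3 h4
  have c2 := nice_err h.swap g' g hg' h2 h1 h4 h3
  rw [expect_comm] at c2
  simp only [mul_add, expect_add_distrib, mul_comm |g _|]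
  rw [← h3, ← h4] at hs
  conv_rhs => rw [← h3, ← h4]
  generalize √(√(𝔼 x, g x ^ 2)) = α at *
  generalize √(√(𝔼 y, g' y ^ 2)) = β at *
  have key : ∀ {α β : ℝ}, 0 ≤ α → 0 ≤ β → α ^ 4 ≤ κ ^ 4 →
      α ^ 3 * β ^ 2 + β ^ 3 * α ^ 2 ≤ 2 * κ * α ^ 4 + 2 * κ * β ^ 4 := by
    intro α β h1 h2 h3
    have a1 := le_of_pow_le_pow_left₀ (by norm_num) hκ h3
    have a2 : α ^ 2 * β ^ 2 + α * β ^ 3 ≤ 2 * α ^ 4 + 2 * β ^ 4 := by
      nlinarith [sq_nonneg (α ^ 2 - β ^ 2), sq_nonneg (α * β - β ^ 2), sq_nonneg (α ^ 2),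
        sq_nonneg (β ^ 2)]
    have a3 : 0 ≤ α ^ 2 * β ^ 2 + α * β ^ 3 := by positivity
    nlinarith [mul_le_mul a1 a2 a3 hκ]
  rcases hs with hs | hs
  · linarith [key h1 h2 hs]
  · linarith [key h2 h1 hs]

end Vale.Agent.P342
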