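import Vale.Agent.P342.Defs

/-! P342: averaging and noise operators on a finite product space.
Plan.  `expect_update`: the map `(x, a) ↦ (update x i a, x i)` is an involution of `(ι → U) × U`
(or use `Equiv.piSplitAt`).  `ES_insert`: `(insert i S).piecewise y x = update (S.piecewise y x) i (y i)`,
then `expect_update` in `y`.  `Tn_insert`: `Finset.sum_powerset_insert`.  Everything about `Tn` then
follows by `Finset.induction_on`.  `energy_insert`: with `h = Tn γ N f`, `e = Ei i h`, one has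
`Tn γ (insert i N) f = e + (1 - γ) (h - e)`, `Ei i` of it is `e`, and `h - e` is orthogonal to `e`
(`pyth`), so the left side is `E e^2 + ((1-γ)^2 + γ (1-γ)^2) infl i h` and the right side is `E e^2 + infl i h`.
`energy_gain`: `N = insert i (N.erase i)`, then `energy_mono` for `N₁ ⊆ N.erase i`.
`infl_ES_le`: `ES S f - Ei i (ES S f) = ES S (f - Ei i f)` and `E (ES S g)^2 ≤ E g^2` (Jensen). -/

namespace Vale.Agent.P342

open Finset Vale.Agent.P325
open scoped BigOperators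

variable {ι U : Type} [Fintype ι] [DecidableEq ι] [Fintype U] [Nonempty U]

theorem ops_prod {α β : Type} [Fintype α] [Fintype β] (f : α × β → ℝ) :
    𝔼 p, f p = 𝔼 a, 𝔼 b, f (a, b) := by
  rw [← univ_product_univ, expect_product]

theorem ops_inv {α β : Type} [Fintype α] [Fintype β] [Nonempty β] (e : α × β → α × β)
    (he : Function.Involutive e) (h : α → ℝ) : 𝔼 a, h a = 𝔼 a, 𝔼 b, h (e (a, b)).1 := by
  rw [← ops_prod fun p => h (e p).1,
    Fintype.expect_bijective e he.bijective _ (fun p => h p.1) fun _ => rfl, ops_prod]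
  simp only [Fintype.expect_const]

theorem ops_le {α : Type} [Fintype α] {f g : α → ℝ} (h : ∀ a, f a ≤ g a) : 𝔼 a, f a ≤ 𝔼 a, g a :=
  expect_le_expect fun a _ => h a

theorem ops_congr {α : Type} [Fintype α] {f g : α → ℝ} (h : ∀ a, f a = g a) :
    𝔼 a, f a = 𝔼 a, g a := expect_congr rfl fun a _ => h a

theorem ops_jensen {α : Type} [Fintype α] [Nonempty α] (g : α → ℝ) :
    (𝔼 y, g y) ^ 2 ≤ 𝔼 y, g y ^ 2 := by
  simpa using expect_mul_sq_le_sq_mul_sq univ g fun _ => 1

theorem expect_update (i : ι) (h : (ι → U) → ℝ) :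
    𝔼 x, h x = 𝔼 x : ι → U, 𝔼 a, h (Function.update x i a) :=
  ops_inv (fun p : (ι → U) × U => (Function.update p.1 i p.2, p.1 i)) (fun p => by simp) h

theorem expect_piecewise (S : Finset ι) (h : (ι → U) → ℝ) :
    𝔼 x : ι → U, 𝔼 y : ι → U, h (S.piecewise y x) = 𝔼 x, h x :=
  (ops_inv (fun p : (ι → U) × (ι → U) => (S.piecewise p.2 p.1, S.piecewise p.1 p.2))
    (fun p => by ext j <;> by_cases hj : j ∈ S <;> simp [hj]) h).symm

theorem Ei_update (i : ι) (f : (ι → U) → ℝ) (x : ι → U) (a : U) :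
    Ei i f (Function.update x i a) = Ei i f x := by
  simp only [Ei, Function.update_idem]

theorem expect_Ei (i : ι) (f : (ι → U) → ℝ) : 𝔼 x, Ei i f x = 𝔼 x, f x :=
  (expect_update i f).symm

theorem pyth (i : ι) (f : (ι → U) → ℝ) : 𝔼 x, f x ^ 2 = (𝔼 x, Ei i f x ^ 2) + infl i f := by
  have h1 : 𝔼 x, Ei i f x * f x = 𝔼 x, Ei i f x ^ 2 := by
    rw [expect_update i]
    refine ops_congr fun x => ?_
    simp only [Ei_update]
    rw [← mul_expect, sq]
    rfl
  have h2 : infl i f = 𝔼 x, (f x ^ 2 - 2 * (Ei i f x * f x) + Ei i f x ^ 2) :=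
    ops_congr fun x => by ring
  rw [h2, expect_add_distrib, expect_sub_distrib, ← mul_expect, h1]
  ring

theorem infl_nonneg (i : ι) (f : (ι → U) → ℝ) : 0 ≤ infl i f :=
  expect_nonneg fun _ _ => sq_nonneg _

theorem ES_empty (f : (ι → U) → ℝ) : ES ∅ f = f := by
  funext x
  simp only [ES, piecewise_empty, Fintype.expect_const]

theorem ES_univ (f : (ι → U) → ℝ) (x : ι → U) : ES univ f x = 𝔼 y, f y := by
  simp only [ES, piecewise_univ]

theorem ES_insert {i : ι} {S : Finset ι} (hi : i ∉ S) (f : (ι → U) → ℝ) :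
    ES (insert i S) f = ES S (Ei i f) := by
  funext x
  rw [ES, expect_update i]
  refine ops_congr fun y => ops_congr fun a => ?_
  congr 1
  funext j
  by_cases h : j = i
  · simp [h]
  · by_cases hj : j ∈ S <;> simp [h, hj]

theorem ops_pw {i : ι} {S : Finset ι} (hi : i ∉ S) (x y : ι → U) (a : U) :
    S.piecewise y (Function.update x i a) = Function.update (S.piecewise y x) i a := by
  funext j
  by_cases h : j = i
  · simp [h, hi]
  · by_cases hj : j ∈ S <;> simp [h, hj]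

theorem ES_Ei {i : ι} {S : Finset ι} (hi : i ∉ S) (f : (ι → U) → ℝ) :
    ES S (Ei i f) = Ei i (ES S f) := by
  funext x
  simp only [ES, Ei, ops_pw hi]
  exact expect_comm _ _ _

theorem ES_update {i : ι} {S : Finset ι} (hi : i ∉ S) (f : (ι → U) → ℝ) (x : ι → U) (a : U) :
    ES S f (Function.update x i a) = ES S (fun z => f (Function.update z i a)) x := by
  simp only [ES, ops_pw hi]

theorem ES_mem {f : (ι → U) → ℝ} (h : ∀ x, 0 ≤ f x ∧ f x ≤ 1) (S : Finset ι) (x : ι → U) :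
    0 ≤ ES S f x ∧ ES S f x ≤ 1 :=
  ⟨expect_nonneg fun _ _ => (h _).1, expect_le univ_nonempty fun _ _ => (h _).2⟩

theorem ops_ES_sub (S : Finset ι) (f g : (ι → U) → ℝ) (x : ι → U) :
    ES S (fun z => f z - g z) x = ES S f x - ES S g x := expect_sub_distrib _ _ _

theorem infl_ES_le {i : ι} {S : Finset ι} (hi : i ∉ S) (f : (ι → U) → ℝ) :
    infl i (ES S f) ≤ infl i f := by
  rw [infl, infl, ← ES_Ei hi, ← expect_piecewise S fun x => (f x - Ei i f x) ^ 2]
  refine ops_le fun x => ?_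
  rw [← ops_ES_sub]
  exact ops_jensen _

theorem Tn_empty (γ : ℝ) (f : (ι → U) → ℝ) : Tn γ ∅ f = f := by
  funext x
  simp [Tn, ES_empty]

theorem Tn_insert (γ : ℝ) {i : ι} {N : Finset ι} (hi : i ∉ N) (f : (ι → U) → ℝ) (x : ι → U) :
    Tn γ (insert i N) f x = (1 - γ) * Tn γ N f x + γ * Tn γ N (Ei i f) x := by
  rw [Tn, Tn, Tn, sum_powerset_insert hi, card_insert_of_notMem hi, mul_sum, mul_sum]
  congr 1 <;> refine sum_congr rfl fun A hA => ?_
  · rw [Nat.succ_sub (card_le_card (mem_powerset.1 hA)), pow_succ]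
    ring
  · have h : i ∉ A := fun h => hi (mem_powerset.1 hA h)
    rw [card_insert_of_notMem h, Nat.succ_sub_succ, ES_insert h, pow_succ]
    ring

theorem Tn_Ei (γ : ℝ) {i : ι} {N : Finset ι} (hi : i ∉ N) (f : (ι → U) → ℝ) :
    Tn γ N (Ei i f) = Ei i (Tn γ N f) := by
  funext x
  rw [Ei]
  simp only [Tn]
  rw [expect_sum_comm]
  refine sum_congr rfl fun A hA => ?_
  rw [ES_Ei fun h => hi (mem_powerset.1 hA h), ← mul_expect]
  rfl

theorem Tn_update (γ : ℝ) {i : ι} {N : Finset ι} (hi : i ∉ N) (f : (ι → U) → ℝ) (x : ι → U)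
    (a : U) : Tn γ N f (Function.update x i a) = Tn γ N (fun z => f (Function.update z i a)) x :=
  sum_congr rfl fun A hA => by rw [ES_update fun h => hi (mem_powerset.1 hA h)]

theorem Tn_sub (γ : ℝ) (N : Finset ι) (f g : (ι → U) → ℝ) (x : ι → U) :
    Tn γ N (fun z => f z - g z) x = Tn γ N f x - Tn γ N g x := by
  simp only [Tn, ops_ES_sub, mul_sub, sum_sub_distrib]

theorem Tn_mem {γ : ℝ} (h0 : 0 ≤ γ) (h1 : γ ≤ 1) (N : Finset ι) {f : (ι → U) → ℝ}
    (h : ∀ x, 0 ≤ f x ∧ f x ≤ 1) (x : ι → U) : 0 ≤ Tn γ N f x ∧ Tn γ N f x ≤ 1 := by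
  induction N using Finset.induction_on generalizing f with
  | empty => rw [Tn_empty]; exact h x
  | insert i N hi ih =>
    have a1 := ih h
    have a2 := ih (f := Ei i f) fun x =>
      ⟨expect_nonneg fun _ _ => (h _).1, expect_le univ_nonempty fun _ _ => (h _).2⟩
    rw [Tn_insert γ hi]
    constructor <;> nlinarith [a1.1, a1.2, a2.1, a2.2]

theorem expect_Tn (γ : ℝ) (N : Finset ι) (f : (ι → U) → ℝ) : 𝔼 x, Tn γ N f x = 𝔼 x, f x := by
  induction N using Finset.induction_on generalizing f with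
  | empty => rw [Tn_empty]
  | insert i N hi ih =>
    simp only [Tn_insert γ hi]
    rw [expect_add_distrib, ← mul_expect, ← mul_expect, ih, ih, expect_Ei]
    ring

theorem energy_insert {γ : ℝ} (h0 : 0 ≤ γ) (h1 : γ ≤ 1) {i : ι} {N : Finset ι} (hi : i ∉ N)
    (f : (ι → U) → ℝ) :
    (𝔼 x, Tn γ (insert i N) f x ^ 2) + γ * infl i (Tn γ (insert i N) f) ≤ 𝔼 x, Tn γ N f x ^ 2 := by
  have e1 : Ei i (Tn γ (insert i N) f) = Ei i (Tn γ N f) := by
    funext x
    rw [Ei]
    simp only [Tn_insert γ hi, Tn_Ei γ hi, Ei_update]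
    rw [expect_add_distrib, ← mul_expect, Fintype.expect_const]
    change (1 - γ) * Ei i (Tn γ N f) x + _ = _
    ring
  have e2 : infl i (Tn γ (insert i N) f) = (1 - γ) ^ 2 * infl i (Tn γ N f) := by
    rw [infl, infl, e1, mul_expect]
    refine ops_congr fun x => ?_
    rw [Tn_insert γ hi, Tn_Ei γ hi]
    ring
  rw [pyth i, pyth i (Tn γ N f), e1, e2]
  have h2 : 0 ≤ γ * (1 + γ * (1 - γ)) := by have := sub_nonneg.2 h1; positivity
  nlinarith [mul_nonneg h2 (infl_nonneg i (Tn γ N f))]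

theorem energy_mono {γ : ℝ} (h0 : 0 ≤ γ) (h1 : γ ≤ 1) {N N₁ : Finset ι} (h : N₁ ⊆ N)
    (f : (ι → U) → ℝ) : 𝔼 x, Tn γ N f x ^ 2 ≤ 𝔼 x, Tn γ N₁ f x ^ 2 := by
  rw [← union_eq_left.2 h]
  clear h
  induction N using Finset.induction_on with
  | empty => rw [empty_union]
  | insert i N hi ih =>
    rw [insert_union]
    by_cases h : i ∈ N ∪ N₁
    · rwa [insert_eq_of_mem h]
    · have a1 := energy_insert h0 h1 h f
      have a2 := mul_nonneg h0 (infl_nonneg i (Tn γ (insert i (N ∪ N₁)) f))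
      linarith

theorem energy_gain {γ : ℝ} (h0 : 0 ≤ γ) (h1 : γ ≤ 1) {N N₁ : Finset ι} (h : N₁ ⊆ N) {i : ι}
    (hi : i ∈ N) (hi' : i ∉ N₁) (f : (ι → U) → ℝ) :
    (𝔼 x, Tn γ N f x ^ 2) + γ * infl i (Tn γ N f) ≤ 𝔼 x, Tn γ N₁ f x ^ 2 := by
  have a1 := energy_insert h0 h1 (notMem_erase i N) f
  rw [insert_erase hi] at a1
  exact a1.trans (energy_mono h0 h1 (subset_erase.2 ⟨h, hi'⟩) f)

end Vale.Agent.P342
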