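import Vale.Agent.P342.Nice

/-! P342: the tower of colour trees.
Plan.  `cw_lt`: the three entries are `< q` when `z < q^2`.  `cw_inj`: two entries determine `z / q` and `z % q`
(for `x, x', y < q`, `(x + y) % q = (x' + y) % q → x = x'`), hence `z` (`Nat.div_add_mod`).
`sh_spec`: `Classical.epsilon_spec`; if `child n (child (n+1) O b) b'' = child n t b'` then `b'' = b'`, `b = t.1`
(compare modulo 3) and `cw z b' = cw t.2 b'` for `z = (child (n+1) O t.1).2 ≠ t.2`; at most one `b'` does this, take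
`e = b' - t.1` (any `e` if there is none).  `3 * qq (n+1) ≤ qq n ^ 2`.
`nice_KK`: induction, `nice_pi (nice_k3 _)` (definitional unfolding of the instances, `exact`).
`KK_supp`: induction on `n`; a nonzero product has nonzero factors (`Finset.prod_ne_zero_iff`).
`top_rel`: `cw q (a * (q+1)) = (a, a, 2a)` for `2a < q`. -/

namespace Vale.Agent.P342

open Finset Vale.Agent.P325
open scoped BigOperators

theorem tree_cw0 (q z : ℕ) : cw q z 0 = z / q := rfl
theorem tree_cw1 (q z : ℕ) : cw q z 1 = z % q := rfl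
theorem tree_cw2 (q z : ℕ) : cw q z 2 = (z / q + z % q) % q := rfl

theorem tree_qq_pos (n : ℕ) : 0 < qq n := by
  unfold qq; omega

theorem tree_div_lt {q z : ℕ} (h : z < q ^ 2) : z / q < q :=
  Nat.div_lt_of_lt_mul (by rwa [← sq])

theorem tree_fin3 (b : Fin 3) : b = 0 ∨ b = 1 ∨ b = 2 := by
  revert b; decide

theorem tree_cw_lt {q z : ℕ} (hq : 0 < q) (h : z < q ^ 2) (b : Fin 3) : cw q z b < q := by
  rcases tree_fin3 b with rfl | rfl | rfl
  · rw [tree_cw0]; exact tree_div_lt h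
  · rw [tree_cw1]; exact Nat.mod_lt _ hq
  · rw [tree_cw2]; exact Nat.mod_lt _ hq

theorem tree_mod_cancel {q x x' y : ℕ} (hx : x < q) (hx' : x' < q)
    (h : (x + y) % q = (x' + y) % q) : x = x' := by
  have h1 : x ≡ x' [MOD q] := Nat.ModEq.add_right_cancel' y h
  exact Nat.ModEq.eq_of_lt_of_lt h1 hx hx'

theorem tree_eq_of {q z z' : ℕ} (h0 : z / q = z' / q) (h1 : z % q = z' % q) : z = z' := by
  rw [← Nat.div_add_mod z q, ← Nat.div_add_mod z' q, h0, h1]

theorem tree_cw_inj {q z z' : ℕ} (hq : 0 < q) (h : z < q ^ 2) (h' : z' < q ^ 2) {b c : Fin 3}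
    (hbc : b ≠ c) (hb : cw q z b = cw q z' b) (hc : cw q z c = cw q z' c) : z = z' := by
  have A : cw q z 0 = cw q z' 0 → cw q z 1 = cw q z' 1 → z = z' := fun h0 h1 =>
    tree_eq_of h0 h1
  have B : cw q z 0 = cw q z' 0 → cw q z 2 = cw q z' 2 → z = z' := fun h0 h2 => by
    rw [tree_cw0, tree_cw0] at h0
    rw [tree_cw2, tree_cw2, h0, add_comm (z' / q), add_comm (z' / q)] at h2
    exact tree_eq_of h0 (tree_mod_cancel (Nat.mod_lt _ hq) (Nat.mod_lt _ hq) h2)
  have C : cw q z 1 = cw q z' 1 → cw q z 2 = cw q z' 2 → z = z' := fun h1 h2 => by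
    rw [tree_cw1, tree_cw1] at h1
    rw [tree_cw2, tree_cw2, h1] at h2
    exact tree_eq_of (tree_mod_cancel (tree_div_lt h) (tree_div_lt h') h2) h1
  rcases tree_fin3 b with rfl | rfl | rfl <;> rcases tree_fin3 c with rfl | rfl | rfl
  · exact absurd rfl hbc
  · exact A hb hc
  · exact B hb hc
  · exact A hc hb
  · exact absurd rfl hbc
  · exact C hb hc
  · exact B hc hb
  · exact C hc hb
  · exact absurd rfl hbc

theorem child_lt {n : ℕ} {O : St} (h : O.2 < qq n ^ 2) (b : Fin 3) : (child n O b).2 < 3 * qq n := by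
  have h1 := tree_cw_lt (tree_qq_pos n) h b
  have h2 := O.1.isLt
  show 3 * cw (qq n) O.2 b + O.1.val < 3 * qq n
  omega

theorem qq_step (n : ℕ) : 3 * qq (n + 1) ≤ qq n ^ 2 := by
  unfold qq
  nlinarith [Nat.zero_le (n * n)]

theorem tree_child_eq {n : ℕ} {O O' : St} {b b' : Fin 3} (h : child n O b = child n O' b') :
    b = b' ∧ O.1 = O'.1 ∧ cw (qq n) O.2 b' = cw (qq n) O'.2 b' := by
  have h1 : b = b' := congrArg Prod.fst h
  have h2 : 3 * cw (qq n) O.2 b + O.1.val = 3 * cw (qq n) O'.2 b' + O'.1.val :=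
    congrArg Prod.snd h
  subst h1
  have h3 := O.1.isLt
  have h4 := O'.1.isLt
  refine ⟨rfl, Fin.ext (by omega), by omega⟩

theorem tree_sh_ex {n : ℕ} {t O : St} (ht : t.2 < qq n ^ 2) (hO : O.2 < qq (n + 1) ^ 2)
    (h : Rel (n + 1) t O) :
    ∃ e : Fin 3, ∀ b b', b' ≠ b + e → Rel n (child n t b') (child (n + 1) O b) := by
  have hz : (child (n + 1) O t.1).2 < qq n ^ 2 := lt_of_lt_of_le (child_lt hO t.1) (qq_step n)
  have hne : (child (n + 1) O t.1).2 ≠ t.2 := fun h2 => h t.1 (Prod.ext rfl h2)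
  by_cases hex : ∃ c, cw (qq n) (child (n + 1) O t.1).2 c = cw (qq n) t.2 c
  · obtain ⟨c, hc⟩ := hex
    refine ⟨c - t.1, fun b b' hb b'' he => ?_⟩
    obtain ⟨-, h2, h3⟩ := tree_child_eq he
    have h4 : b = t.1 := h2
    subst h4
    rw [add_sub_cancel] at hb
    exact hne (tree_cw_inj (tree_qq_pos n) hz ht hb h3 hc)
  · refine ⟨0, fun b b' _ b'' he => ?_⟩
    obtain ⟨-, h2, h3⟩ := tree_child_eq he
    have h4 : b = t.1 := h2
    subst h4
    exact hex ⟨b', h3⟩

theorem sh_spec {n : ℕ} {t O : St} (ht : t.2 < qq n ^ 2) (hO : O.2 < qq (n + 1) ^ 2)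
    (h : Rel (n + 1) t O) (b b' : Fin 3) (hb : b' ≠ b + sh n t O) :
    Rel n (child n t b') (child (n + 1) O b) :=
  Classical.epsilon_spec (tree_sh_ex ht hO h) b b' hb

theorem top_lt {m a : ℕ} (h : 2 * a < qq m) : (top m a).2 < qq m ^ 2 := by
  have hq := tree_qq_pos m
  show a * (qq m + 1) < qq m ^ 2
  nlinarith

theorem tree_cw_top {q a : ℕ} (h : 2 * a < q) (b : Fin 3) :
    cw q (a * (q + 1)) b = if b = 2 then 2 * a else a := by
  have hq : 0 < q := by omega
  have ha : a < q := by omega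
  have e : a * (q + 1) = a + q * a := by ring
  have h0 : a * (q + 1) / q = a := by
    rw [e, Nat.add_mul_div_left _ _ hq, Nat.div_eq_of_lt ha, zero_add]
  have h1 : a * (q + 1) % q = a := by
    rw [e, Nat.add_mul_mod_self_left, Nat.mod_eq_of_lt ha]
  rcases tree_fin3 b with rfl | rfl | rfl
  · rw [tree_cw0, h0, if_neg (by decide)]
  · rw [tree_cw1, h1, if_neg (by decide)]
  · rw [tree_cw2, h0, h1, if_pos rfl, ← two_mul, Nat.mod_eq_of_lt h]

theorem top_rel {m a a' : ℕ} (h : 2 * a < qq m) (h' : 2 * a' < qq m) (hne : a ≠ a') (b : Fin 3) :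
    Rel m (child m (top m a') b) (top m a) := by
  intro b'' he
  obtain ⟨-, -, h3⟩ := tree_child_eq he
  have h4 : cw (qq m) (a * (qq m + 1)) b = cw (qq m) (a' * (qq m + 1)) b := h3
  rw [tree_cw_top h, tree_cw_top h'] at h4
  split_ifs at h4 <;> omega

variable {Λ : Type}

theorem vl_congr (n : ℕ) (O : St) (u : UU Λ n) {p p' : ℕ → Λ}
    (h : ∀ j, 1 ≤ j → j < n → p j = p' j) : vl n O u p = vl n O u p' := by
  induction n generalizing O with
  | zero => rfl
  | succ n ih =>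
    show vl n (child n O u.1) (u.2 (p n)) p = vl n (child n O u.1) (u.2 (p' n)) p'
    rcases Nat.eq_zero_or_pos n with rfl | hn
    · rfl
    · rw [h n hn (Nat.lt_succ_self n)]
      exact ih _ _ fun j h1 h2 => h j h1 (Nat.lt_succ_of_lt h2)

theorem vl_lt (n : ℕ) {O : St} (h : O.2 < 3 * qq n) (u : UU Λ n) (p : ℕ → Λ) :
    (vl n O u p).2 < 12 := by
  induction n generalizing O with
  | zero => exact h
  | succ n ih =>
    show (vl n (child n O u.1) (u.2 (p n)) p).2 < 12
    exact ih (child_lt (lt_of_lt_of_le h (qq_step n)) _) _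

theorem toC_ne {s s' : Bool} {O O' : St} (h : O.2 < 12) (h' : O'.2 < 12) (hne : O ≠ O') :
    toC s O ≠ toC s' O' := by
  intro he
  have h1 : O.1 = O'.1 := congrArg (fun x : Col => x.2.1) he
  have h2 : O.2 % 12 = O'.2 % 12 := congrArg (fun x : Col => x.2.2.val) he
  exact hne (Prod.ext h1 (by omega))

theorem nice_KK [Fintype Λ] [DecidableEq Λ] (n : ℕ) (O t : St) : Nice (KK (Λ := Λ) n O t) := by
  induction n generalizing O t with
  | zero => exact nice_one
  | succ n ih =>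
    exact nice_pi (ι := Λ) (U := UU Λ (n + 1)) (V := UU Λ n)
      (k := fun d d' _ => KK n (child (n + 1) O d) (child n t d')) (nice_k3 (sh n t O))
      fun d d' _ => ih _ _

theorem KK_supp [Fintype Λ] (n : ℕ) {O t : St} (hO : O.2 < qq n ^ 2) (ht : t.2 < 3 * qq n)
    (h : Rel n t O) {u : UU Λ (n + 1)} {v : UU Λ n} (hk : KK n O t u v ≠ 0) (p : ℕ → Λ) :
    vl (n + 1) O u p ≠ vl n t v fun j => p (j + 1) := by
  induction n generalizing O t with
  | zero => exact h u.1
  | succ n ih =>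
    have hk' : k3 (sh n t O) u.1 v.1 *
        ∏ l, KK n (child (n + 1) O u.1) (child n t v.1) (u.2 l) (v.2 l) ≠ 0 := hk
    obtain ⟨h1, h2⟩ := mul_ne_zero_iff.1 hk'
    have h3 : v.1 ≠ u.1 + sh n t O := fun he => h1 (by unfold k3; rw [if_pos he])
    have ht' : t.2 < qq n ^ 2 := lt_of_lt_of_le ht (qq_step n)
    exact ih (lt_of_lt_of_le (child_lt hO u.1) (qq_step n)) (child_lt ht' v.1)
      (sh_spec ht' hO h u.1 v.1 h3) (Finset.prod_ne_zero_iff.1 h2 (p (n + 1)) (mem_univ _))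

end Vale.Agent.P342
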