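import Vale.Agent.P342.Bell
import Vale.Agent.P342.Tree

/-! P342: two consecutive windows cannot have the same popular colour for different types.
Plan.  `dens_in`: `xo m pp G S X = xi m pp G S (fun ω => (X ω).1) (fun ω => (X (π ω)).2 ω)` (by `hπ`), and
`E_X h (fun ω => (X ω).1) (fun ω => (X (π ω)).2 ω) = E_d E_y h d y` for `X : Λ → Fin 3 × (Λ → U)`.
`exists_dens`: the densities of the colours add up to one.
`pair`: apply `core` with `D = Λ → Bool`, `D' = (Λ → Bool) × (Λ → Fin 3)`, `F S = Fo .. (R.piecewise s S) ()`,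
`F' d' = Fi .. (R'.piecewise s' d'.1) d'.2`, `N = NR id R`, `N' = NR π' R'`, and the kernel at `ω` equal to `1` if
`ω ∈ R ∧ π' ω ∈ R'` and to `KK m (top m a) (child m (top m a') (d'.2 (π' ω)))` otherwise.  The right side of `core` is
zero: if the kernel is nonzero then `xo .. α ≠ xi .. (ρ α)` for all `α` (world bits, or `KK_supp`, `vl_congr`, `toC_ne`). -/

namespace Vale.Agent.P342

open Finset Vale.Agent.P325
open scoped BigOperators

variable {Λ : Type} [Fintype Λ] [DecidableEq Λ] {c m : ℕ}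

theorem pair_expect_prod {A B : Type} [Fintype A] [Fintype B] (f : A × B → ℝ) :
    (𝔼 p, f p) = 𝔼 a, 𝔼 b, f (a, b) := by
  rw [← Finset.expect_product', Finset.univ_product_univ]

theorem pair_diag {U : Type} [Fintype U] [Nonempty U] (π : Λ → Λ) (g : (Λ → U) → ℝ) :
    𝔼 W : Λ → Λ → U, g (fun ω => W (π ω) ω) = 𝔼 y, g y := by
  let f : (Λ → Λ → U) × (Λ → U) → (Λ → Λ → U) × (Λ → U) := fun p =>
    (fun ω' ω => if ω' = π ω then p.2 ω else p.1 ω' ω, fun ω => p.1 (π ω) ω)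
  have hf : Function.Involutive f := by
    rintro ⟨W, y⟩
    refine Prod.ext (funext fun ω' => funext fun ω => ?_) (funext fun ω => ?_)
    · by_cases h : ω' = π ω <;> simp [f, h]
    · simp [f]
  have h1 : (𝔼 p, g (f p).2) = 𝔼 p : (Λ → Λ → U) × (Λ → U), g p.2 :=
    Finset.expect_equiv hf.toPerm (by simp) (by simp)
  rw [pair_expect_prod, pair_expect_prod] at h1
  simpa only [f, Finset.expect_const univ_nonempty] using h1

theorem pair_split (π : Λ → Λ) (h : (Λ → Fin 3) → (Λ → UU Λ m) → ℝ) :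
    𝔼 X : Λ → UU Λ (m + 1), h (fun ω => (X ω).1) (fun ω => (X (π ω)).2 ω) = 𝔼 d, 𝔼 y, h d y := by
  have h1 : 𝔼 X : Λ → UU Λ (m + 1), h (fun ω => (X ω).1) (fun ω => (X (π ω)).2 ω) =
      𝔼 p : (Λ → Fin 3) × (Λ → Λ → UU Λ m), h p.1 fun ω => p.2 (π ω) ω :=
    Finset.expect_equiv (Equiv.arrowProdEquivProdArrow Λ (fun _ => Fin 3) fun _ => Λ → UU Λ m)
      (fun _ => by simp) fun _ _ => rfl
  rw [h1, pair_expect_prod]
  exact Finset.expect_congr rfl fun d _ => pair_diag π (h d)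

theorem dens_in (c0 : (Λ → Col) → Fin c) {pp : ℕ → Λ → Λ} {π : Λ → Λ}
    (hπ : ∀ α, π (pp m α) = pp (m + 1) α) (G : St) (χ : Fin c) (R : Finset Λ) (s : Λ → Bool) :
    𝔼 S : Λ → Bool, 𝔼 d, 𝔼 y, Fi c0 m pp G χ (R.piecewise s S) d y = dens c0 m pp G χ R s := by
  refine Finset.expect_congr rfl fun S _ => ?_
  rw [← pair_split π]
  refine Finset.expect_congr rfl fun X _ => ?_
  have e : xi m pp G (R.piecewise s S) (fun ω => (X ω).1) (fun ω => (X (π ω)).2 ω) =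
      xo m pp G (R.piecewise s S) X := by
    funext α
    simp only [xi, xo, hπ]
    rfl
  rw [Fi, Fo, e]

theorem exists_dens (c0 : (Λ → Col) → Fin c) (pp : ℕ → Λ → Λ) (G : St) (R : Finset Λ)
    (s : Λ → Bool) : ∃ χ, 1 / (c : ℝ) ≤ dens c0 m pp G χ R s := by
  have χ0 : Fin c := c0 fun _ => default
  have hc : (0 : ℝ) < c := by exact_mod_cast χ0.pos
  have h1 : ∑ χ, dens c0 m pp G χ R s = 1 := by
    have h2 : ∀ z : Fin c, ∑ χ, ind (z = χ) = 1 := fun z => by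
      rw [Finset.sum_eq_single z (fun b _ hb => ind_of_not (Ne.symm hb)) (by simp), ind_of rfl]
    simp only [dens, Fo, ← Finset.expect_sum_comm, h2, Finset.expect_const univ_nonempty]
  obtain ⟨χ, -, h⟩ := Finset.exists_le_of_sum_le (s := univ) (f := fun _ : Fin c => 1 / (c : ℝ))
    (g := fun χ => dens c0 m pp G χ R s) ⟨χ0, mem_univ _⟩ (by
      rw [h1]
      simp [hc.ne'])
  exact ⟨χ, h⟩

theorem pair {γ κ : ℝ} (hκ : 0 ≤ κ) (h0 : 0 ≤ γ) (h1 : γ ≤ 1)
    (hsmall : 8 * κ + 2 * γ < 1 / (c : ℝ) ^ 4) (hm : 2 * c < qq m) (hm1 : 1 ≤ m)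
    {c0 c1 : (Λ → Col) → Fin c} {pp pp' : ℕ → Λ → Λ} {π π' ρ : Λ → Λ}
    (hpp : ∀ j α, 1 ≤ j → j ≤ m → pp' j (ρ α) = pp (j + 1) α)
    (hπ' : ∀ α, π' (pp' m α) = pp' (m + 1) α)
    (hprop : ∀ x y : Λ → Col, (∀ α, x α ≠ y (ρ α)) → c0 x ≠ c1 y)
    {R R' : Finset Λ} {s s' : Λ → Bool} (hs : ∀ ω ∈ R, π' ω ∈ R' → s ω ≠ s' (π' ω))
    (hb : ¬ WBad γ (κ ^ 4) c0 m pp π R s) (hb' : ¬ WBad γ (κ ^ 4) c1 m pp' π' R' s')
    {a a' : Fin (c + 1)} (hne : a ≠ a') {χ : Fin c}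
    (hd : 1 / (c : ℝ) ≤ dens c0 m pp (top m a) χ R s)
    (hd' : 1 / (c : ℝ) ≤ dens c1 m pp' (top m a') χ R' s') : False := by
  have ha : 2 * (a : ℕ) < qq m := by omega
  have ha' : 2 * (a' : ℕ) < qq m := by omega
  have h := core (D := Λ → Bool) (D' := (Λ → Bool) × (Λ → Fin 3))
    (k := fun _ d' ω => if ω ∈ R ∧ π' ω ∈ R' then fun _ _ => 1 else
      KK m (top m a) (child m (top m a') (d'.2 (π' ω))))
    (F := fun S => Fo c0 m pp (top m a) χ (R.piecewise s S) ())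
    (F' := fun d' => Fi c1 m pp' (top m a') χ (R'.piecewise s' d'.1) d'.2)
    (fun _ d' ω => by
      split_ifs
      exacts [nice_one, nice_KK _ _ _])
    (fun _ _ => ⟨ind_nonneg _, ind_le_one _⟩) (fun _ _ => ⟨ind_nonneg _, ind_le_one _⟩) hκ h0 h1
    (NR id R) (NR π' R') (fun i => by
      by_cases hi : i ∈ R
      · by_cases hi' : π' i ∈ R'
        · exact Or.inl fun _ _ _ _ => by rw [if_pos ⟨hi, hi'⟩]
        · refine Or.inr (Or.inr (not_lt.1 fun hlt => hb' ⟨a', χ, π' i, Or.inr ⟨hi', i, rfl, ?_⟩⟩))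
          rwa [pair_expect_prod] at hlt
      · refine Or.inr (Or.inl (not_lt.1 fun hlt => hb ⟨a, χ, i, Or.inl ⟨hi, i, rfl, ?_⟩⟩))
        refine hlt.trans_eq (Finset.expect_congr rfl fun S _ => ?_)
        exact (Finset.expect_const (univ_nonempty (α := Unit)) _).symm)
  have hz : ∀ (S : Λ → Bool) (d' : (Λ → Bool) × (Λ → Fin 3)) (x : Λ → UU Λ (m + 1))
      (y : Λ → UU Λ m), (∏ ω, (if ω ∈ R ∧ π' ω ∈ R' then fun _ _ => 1 else
        KK m (top m a) (child m (top m a') (d'.2 (π' ω)))) (x ω) (y ω)) *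
      (Fo c0 m pp (top m a) χ (R.piecewise s S) () x *
        Fi c1 m pp' (top m a') χ (R'.piecewise s' d'.1) d'.2 y) = 0 := by
    intro S d' x y
    rw [mul_eq_zero, or_iff_not_imp_left]
    intro hk
    rw [Fo, Fi, ← ind_and]
    refine ind_of_not fun hh => hprop _ _ (fun α => ?_) (hh.1.trans hh.2.symm)
    have hk1 := Finset.prod_ne_zero_iff.1 hk (pp (m + 1) α) (mem_univ _)
    have e1 := hpp m α hm1 le_rfl
    have e2 : π' (pp (m + 1) α) = pp' (m + 1) (ρ α) := by rw [← e1, hπ']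
    rw [xo, xi, e1, ← e2]
    split_ifs at hk1 with hR
    · intro he
      have := congrArg Prod.fst he
      simp only [toC, Finset.piecewise_eq_of_mem _ _ _ hR.1,
        Finset.piecewise_eq_of_mem _ _ _ hR.2] at this
      exact hs _ hR.1 hR.2 this
    · have h3 := KK_supp m (top_lt ha) (child_lt (top_lt ha') _)
        (top_rel ha ha' (fun h => hne (Fin.ext h)) _) hk1 fun j => pp j α
      rw [vl_congr m _ _ (p' := fun j => pp' j (ρ α)) fun j j1 j2 => (hpp j α j1 j2.le).symm] at h3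
      exact toC_ne (vl_lt m (child_lt (top_lt ha) _) _ _) (vl_lt m (child_lt (top_lt ha') _) _ _) h3
  simp only [hz, Finset.expect_const_zero] at h
  rw [pair_expect_prod, dens_in c1 hπ'] at h
  have hc : (0 : ℝ) ≤ 1 / (c : ℝ) := by positivity
  have h4 := mul_le_mul (pow_le_pow_left₀ hc hd 2) (pow_le_pow_left₀ hc hd' 2) (by positivity)
    (by positivity)
  have e : (1 / (c : ℝ)) ^ 2 * (1 / (c : ℝ)) ^ 2 = 1 / (c : ℝ) ^ 4 := by ring
  rw [e] at h4
  unfold dens at h4 h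
  linarith

end Vale.Agent.P342
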