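import Vale.Agent.P342.Nice

/-! P342: noise changes the correlation under a product of nice couplings by at most `γ`.
Plan.  Prove by `Finset.induction_on S`, for all `u v` and `lam ∈ [0,1]`:
`|E_x E_y (∏ j ∈ S, k j) ((u - lam Tn γ (N ∩ S) u) x * v y)| ≤ ((1 - lam) + γ) (E u^2 + E v^2) / 2`.
Base: the expression is `(1 - lam) (E u) (E v)`.  Step `i ∉ S`: `ub = Ei i u`, `ut = u - ub`, same for `v`;
`Tn γ (N ∩ insert i S) u = T ub + lam' T ut` with `T = Tn γ (N ∩ S)` and `lam' = 1 - γ` if `i ∈ N`, `1` otherwise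
(`Tn_insert`, `Tn_sub`).  `kernel_split`; the part `ub - lam T ub` does not depend on coordinate `i` and gives the
expression of `(ub, vb)` (`row`/`col`).  The part `A = ut - lam lam' T ut` has mean zero in coordinate `i`, so it gives
`E_a E_x E_y (∏ S) A (update x i a) * W a y` with `W a y = E_b k i a b * vt (update y i b)`; for fixed `a` apply
the induction hypothesis to `z ↦ ut (update z i a)` (`Tn_update`) and `2 * W a`, and use `Nice.contract`:
`E_a E_y (2 W a y)^2 ≤ E vt^2`.  Finally `((1 - lam lam') + γ) / 2 ≤ (1 - lam) + γ` and `pyth`. -/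

namespace Vale.Agent.P342

open Finset Vale.Agent.P325
open scoped BigOperators

variable {ι U V : Type} [Fintype ι] [DecidableEq ι] [Fintype U] [Nonempty U] [Fintype V]
  [Nonempty V]

theorem smooth_T (γ : ℝ) (N : Finset ι) {i : ι} {S : Finset ι} (hi : i ∉ S) (h0 : 0 ≤ γ)
    (h1 : γ ≤ 1) : ∃ l : ℝ, 1 - γ ≤ l ∧ l ≤ 1 ∧ ∀ (u : (ι → U) → ℝ) x, Tn γ (N ∩ insert i S) u x =
      Tn γ (N ∩ S) (Ei i u) x + l * Tn γ (N ∩ S) (fun z => u z - Ei i u z) x := by
  by_cases h : i ∈ N
  · refine ⟨1 - γ, le_rfl, by linarith, fun u x => ?_⟩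
    rw [inter_insert_of_mem h, Tn_insert γ fun h => hi (mem_inter.1 h).2, Tn_sub]
    ring
  · refine ⟨1, by linarith, le_rfl, fun u x => ?_⟩
    rw [inter_insert_of_notMem h, Tn_sub]
    ring

theorem smooth_zero (i : ι) (u : (ι → U) → ℝ) (x : ι → U) :
    𝔼 a, (u (Function.update x i a) - Ei i u (Function.update x i a)) = 0 := by
  simp only [Ei_update, expect_sub_distrib, Fintype.expect_const]
  exact sub_self _

theorem smooth_point {k : U → V → ℝ} (h : Nice k) (B c : ℝ) (A : U → ℝ) (w : V → ℝ)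
    (hA : 𝔼 a, A a = 0) (hw : 𝔼 b, w b = c) :
    𝔼 a, 𝔼 b, k a b * ((B + A a) * w b) = B * c + 𝔼 a, A a * 𝔼 b, k a b * (w b - c) := by
  have e : ∀ a b, k a b * ((B + A a) * w b) =
      k a b * (B * w b) + k a b * (c * A a) + A a * (k a b * (w b - c)) := fun a b => by ring
  simp only [e, expect_add_distrib]
  rw [h.margL, h.margR]
  simp only [← mul_expect, hA, hw, mul_zero, add_zero]

theorem smooth_ind {k : ι → U → V → ℝ} (h : ∀ i, Nice (k i)) {γ : ℝ} (h0 : 0 ≤ γ) (h1 : γ ≤ 1)
    (N S : Finset ι) (u : (ι → U) → ℝ) (v : (ι → V) → ℝ) {l : ℝ} (l0 : 0 ≤ l) (l1 : l ≤ 1) :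
    |𝔼 x : ι → U, 𝔼 y : ι → V, (∏ j ∈ S, k j (x j) (y j)) * ((u x - l * Tn γ (N ∩ S) u x) * v y)| ≤
      (1 - l + γ) * ((𝔼 x, u x ^ 2) + 𝔼 y, v y ^ 2) / 2 := by
  induction S using Finset.induction_on generalizing u v l with
  | empty =>
    have e : (1 - l + γ) * ((𝔼 x, u x ^ 2) + 𝔼 y, v y ^ 2) / 2 =
        𝔼 x, 𝔼 y, (1 - l + γ) * (u x ^ 2 + v y ^ 2) / 2 := by
      simp only [← expect_div, ← mul_expect, expect_add_distrib, Fintype.expect_const]
    rw [e, inter_empty, Tn_empty]
    refine (abs_expect_le _ _).trans (ops_le fun x => (abs_expect_le _ _).trans (ops_le fun y => ?_))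
    have a1 := mul_nonneg (sub_nonneg.2 l1) (sq_nonneg (u x - v y))
    have a2 := mul_nonneg (sub_nonneg.2 l1) (sq_nonneg (u x + v y))
    have a3 := mul_nonneg h0 (add_nonneg (sq_nonneg (u x)) (sq_nonneg (v y)))
    rw [prod_empty, abs_le]
    constructor <;> nlinarith
  | insert i S hi ih =>
    obtain ⟨m, m0, m1, hm⟩ := smooth_T (U := U) γ N hi h0 h1
    have hi' : i ∉ N ∩ S := fun h => hi (mem_inter.1 h).2
    set ua : U → (ι → U) → ℝ := fun a z =>
      u (Function.update z i a) - Ei i u (Function.update z i a) with hua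
    set W : U → (ι → V) → ℝ := fun a y => 𝔼 b, k i a b * (v (Function.update y i b) - Ei i v y)
      with hW
    have e1 : ∀ (x : ι → U) (y : ι → V), 𝔼 a, 𝔼 b, k i a b * ((u (Function.update x i a) -
        l * Tn γ (N ∩ insert i S) u (Function.update x i a)) * v (Function.update y i b)) =
        (Ei i u x - l * Tn γ (N ∩ S) (Ei i u) x) * Ei i v y +
          𝔼 a, (ua a x - l * m * Tn γ (N ∩ S) (ua a) x) * W a y := by
      intro x y
      refine Eq.trans ?_ (smooth_point (h i) _ _ _ _ ?_ rfl)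
      · refine ops_congr fun a => ops_congr fun b => ?_
        rw [hm, Tn_update γ hi' fun z => u z - Ei i u z, Tn_Ei γ hi', Ei_update, hua]
        simp only [Ei_update]
        ring
      · rw [expect_sub_distrib, ← mul_expect, smooth_zero]
        simp only [hua, ← Tn_update γ hi' fun z => u z - Ei i u z]
        simp only [Tn_sub, Tn_Ei γ hi']
        rw [smooth_zero, mul_zero, sub_zero]
    have e2 : 𝔼 x : ι → U, 𝔼 y : ι → V, (∏ j ∈ S, k j (x j) (y j)) *
        𝔼 a, (ua a x - l * m * Tn γ (N ∩ S) (ua a) x) * W a y =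
        (𝔼 a, 𝔼 x : ι → U, 𝔼 y : ι → V, (∏ j ∈ S, k j (x j) (y j)) *
          ((ua a x - l * m * Tn γ (N ∩ S) (ua a) x) * (2 * W a y))) / 2 := by
      rw [expect_comm (univ : Finset U)]
      simp only [expect_div, mul_expect]
      refine ops_congr fun x => ?_
      rw [expect_comm]
      exact ops_congr fun a => ops_congr fun y => by ring
    have lm0 : 0 ≤ l * m := mul_nonneg l0 (by linarith)
    have lm1 : l * m ≤ 1 := mul_le_one₀ l1 (by linarith) m1
    have i1 := ih (Ei i u) (Ei i v) l0 l1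
    have i2 := (abs_expect_le _ _).trans
      (ops_le fun a => ih (ua a) (fun y => 2 * W a y) lm0 lm1)
    have e3 : 𝔼 a, 𝔼 x, ua a x ^ 2 = infl i u := by
      rw [expect_comm, infl, expect_update i fun x => (u x - Ei i u x) ^ 2]
    have e4 : 𝔼 a, 𝔼 y, (2 * W a y) ^ 2 ≤ infl i v := by
      rw [expect_comm, infl, expect_update i fun x => (v x - Ei i v x) ^ 2]
      refine ops_le fun y => ?_
      have := (h i).contract (fun b => v (Function.update y i b) - Ei i v y)
        (by simpa only [Ei_update] using smooth_zero i v y)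
      simp only [mul_pow, ← mul_expect, Ei_update]
      linarith
    rw [← expect_div, ← mul_expect, expect_add_distrib, e3] at i2
    rw [kernel_split k hi fun x y => (u x - l * Tn γ (N ∩ insert i S) u x) * v y]
    simp only [e1, mul_add, expect_add_distrib]
    rw [e2, pyth i u, pyth i v]
    have b1 := infl_nonneg i u
    have b2 := infl_nonneg i v
    have b3 : 1 - l * m + γ ≤ 2 * (1 - l + γ) := by nlinarith
    have b4 := mul_le_mul b3 (add_le_add (le_refl (infl i u)) e4)
      (add_nonneg b1 (expect_nonneg fun _ _ => expect_nonneg fun _ _ => sq_nonneg _))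
      (by linarith)
    rw [abs_le] at *
    constructor <;> linarith [i1.1, i1.2, i2.1, i2.2]

theorem smooth {k : ι → U → V → ℝ} (h : ∀ i, Nice (k i)) {γ : ℝ} (h0 : 0 ≤ γ) (h1 : γ ≤ 1)
    (N : Finset ι) (u : (ι → U) → ℝ) (v : (ι → V) → ℝ) :
    |𝔼 x : ι → U, 𝔼 y : ι → V, (∏ j, k j (x j) (y j)) * ((u x - Tn γ N u x) * v y)| ≤
      γ * ((𝔼 x, u x ^ 2) + 𝔼 y, v y ^ 2) / 2 := by
  simpa only [inter_univ, one_mul, sub_self, zero_add] using
    smooth_ind h h0 h1 N univ u v zero_le_one le_rfl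

end Vale.Agent.P342
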