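import Vale.Agent.P325.Stmt

/-! Definitions used in the statement of the hardness of approximate colouring. -/

namespace Vale.Agent.P342

open Vale.Agent.P325

/-- A graph instance: the list of its edges; vertices are named by natural numbers. -/
abbrev EL : Type := List (ℕ × ℕ)

/-- The vertices of an instance: the end points of its edges. -/
def verts (E : EL) : Finset ℕ := (E.map Prod.fst).toFinset ∪ (E.map Prod.snd).toFinset

/-- The finite simple graph described by an edge list. -/
def graphOf (E : EL) : SimpleGraph (verts E) :=
  SimpleGraph.fromRel fun u v => ((u : ℕ), (v : ℕ)) ∈ E

/-- Binary code of an edge list. -/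
def codeEL : EL → List Bool := bList (bPair bNat bNat)

end Vale.Agent.P342
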